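import Crest.Agent.R341.Prim
import Crest.Prelude.Def_QState

/-! Row 341: basic properties of the von Neumann entropy of positive semidefinite matrices. -/

set_option autoImplicit false
set_option linter.unusedSectionVars false

namespace Crest.Agent.R341

open Real Finset Matrix Crest.Quantum
open scoped ComplexOrder Kronecker

variable {n m : Type*} [Fintype n] [DecidableEq n] [Fintype m] [DecidableEq m]

/-- real diagonal matrices -/
def rdiag (d : n → ℝ) : Matrix n n ℂ := diagonal fun i => (d i : ℂ)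

theorem rdiag_psd {d : n → ℝ} (hd : ∀ i, 0 ≤ d i) : (rdiag d).PosSemidef :=
  PosSemidef.diagonal fun i => Complex.zero_le_real.2 (hd i)

theorem trace_rdiag (d : n → ℝ) : (rdiag d).trace.re = ∑ i, d i := by
  simp [rdiag, trace_diagonal]

theorem exists_spec {A : Matrix n n ℂ} (hA : A.PosSemidef) :
    ∃ (U : Matrix n n ℂ) (d : n → ℝ), Uᴴ * U = 1 ∧ U * Uᴴ = 1 ∧ (∀ i, 0 ≤ d i) ∧
      A = U * rdiag d * Uᴴ ∧ vnEntropy A = ∑ i, negMulLog (d i) := by
  refine ⟨hA.1.eigenvectorUnitary, hA.1.eigenvalues, ?_, ?_, hA.eigenvalues_nonneg, ?_, ?_⟩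
  · exact hA.1.eigenvectorUnitary.2.1
  · exact hA.1.eigenvectorUnitary.2.2
  · exact hA.1.spectral_theorem
  · rw [vnEntropy, dif_pos hA.1, ← sum_neg_distrib]
    exact sum_congr rfl fun i _ => by rw [negMulLog]; ring

/-- `log det (1 + A / s)` -/
noncomputable def ldet (A : Matrix n n ℂ) (s : ℝ) : ℝ :=
  log (1 + ((s⁻¹ : ℝ) : ℂ) • A).det.re

theorem ldet_conj {U : Matrix n n ℂ} (hU : U * Uᴴ = 1) (A : Matrix n n ℂ) (s : ℝ) :
    ldet (U * A * Uᴴ) s = ldet A s := by
  unfold ldet
  have : 1 + ((s⁻¹ : ℝ) : ℂ) • (U * A * Uᴴ) = U * (1 + ((s⁻¹ : ℝ) : ℂ) • A) * Uᴴ := by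
    rw [Matrix.mul_add, Matrix.add_mul, Matrix.mul_one, hU, Matrix.mul_smul, Matrix.smul_mul]
  rw [this, det_mul, det_mul, mul_comm (det U), mul_assoc, ← det_mul, hU, det_one, mul_one]

theorem trace_conj {U : Matrix n n ℂ} (hU : Uᴴ * U = 1) (A : Matrix n n ℂ) :
    (U * A * Uᴴ).trace = A.trace := by
  rw [trace_mul_cycle, hU, Matrix.one_mul]

theorem ldet_rdiag {d : n → ℝ} (hd : ∀ i, 0 ≤ d i) {s : ℝ} (hs : 0 < s) :
    ldet (rdiag d) s = ∑ i, log (1 + d i / s) := by
  unfold ldet
  have : 1 + ((s⁻¹ : ℝ) : ℂ) • rdiag d = rdiag fun i => 1 + d i / s := by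
    ext i j
    by_cases h : i = j
    · subst h; simp [rdiag, div_eq_inv_mul]
    · simp [rdiag, h]
  rw [this, rdiag, det_diagonal, ← Complex.ofReal_prod, Complex.ofReal_re, log_prod]
  intro i _
  have := hd i
  positivity

theorem prim_rdiag {d : n → ℝ} (hd : ∀ i, 0 ≤ d i) :
    Prim (ldet (rdiag d)) (∑ i, d i) (∑ i, negMulLog (d i)) :=
  (Prim.sum univ fun i _ => Prim.base (hd i)).congr (fun _ hs => ldet_rdiag hd hs) rfl rfl

theorem prim_ldet {A : Matrix n n ℂ} (hA : A.PosSemidef) :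
    Prim (ldet A) A.trace.re (vnEntropy A) := by
  obtain ⟨U, d, h1, h2, hd, e, hS⟩ := exists_spec hA
  refine (prim_rdiag hd).congr (fun s _ => ?_) ?_ hS
  · rw [e, ldet_conj h2]
  · rw [e, trace_conj h1, trace_rdiag]

theorem vn_rdiag {d : n → ℝ} (hd : ∀ i, 0 ≤ d i) : vnEntropy (rdiag d) = ∑ i, negMulLog (d i) :=
  (prim_ldet (rdiag_psd hd)).unique (prim_rdiag hd) (trace_rdiag d) fun _ _ => rfl

theorem vn_conj {A U : Matrix n n ℂ} (hA : A.PosSemidef) (h1 : Uᴴ * U = 1) (h2 : U * Uᴴ = 1) :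
    vnEntropy (U * A * Uᴴ) = vnEntropy A :=
  (prim_ldet (hA.mul_mul_conjTranspose_same U)).unique (prim_ldet hA) (by rw [trace_conj h1])
    fun s _ => ldet_conj h2 A s

theorem trace_submatrix_equiv (A : Matrix n n ℂ) (e : m ≃ n) :
    (A.submatrix e e).trace = A.trace := by
  simp only [trace, diag_apply, submatrix_apply]
  exact e.sum_comp fun i => A i i

theorem vn_submatrix {A : Matrix n n ℂ} (hA : A.PosSemidef) (e : m ≃ n) :
    vnEntropy (A.submatrix e e) = vnEntropy A := by
  refine (prim_ldet (hA.submatrix e)).unique (prim_ldet hA) (by rw [trace_submatrix_equiv])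
    fun s _ => ?_
  unfold ldet
  rw [← det_submatrix_equiv_self e (1 + _)]
  congr 3
  ext i j
  simp [one_apply]

theorem trace_re_nonneg {A : Matrix n n ℂ} (hA : A.PosSemidef) : 0 ≤ A.trace.re :=
  (Complex.nonneg_iff.1 hA.trace_nonneg).1

theorem diag_re_nonneg {A : Matrix n n ℂ} (hA : A.PosSemidef) (i : n) : 0 ≤ (A i i).re :=
  (Complex.nonneg_iff.1 (hA.diag_nonneg (i := i))).1

theorem psd_smul {A : Matrix n n ℂ} (hA : A.PosSemidef) {c : ℝ} (hc : 0 ≤ c) :
    ((c : ℂ) • A).PosSemidef := hA.smul (Complex.zero_le_real.2 hc)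

theorem vn_smul {A : Matrix n n ℂ} (hA : A.PosSemidef) {c : ℝ} (hc : 0 ≤ c) :
    vnEntropy ((c : ℂ) • A) = c * vnEntropy A + A.trace.re * negMulLog c := by
  obtain ⟨U, d, h1, h2, hd, e, hS⟩ := exists_spec hA
  have hcd : ∀ i, 0 ≤ c * d i := fun i => mul_nonneg hc (hd i)
  have e2 : (c : ℂ) • A = U * rdiag (fun i => c * d i) * Uᴴ := by
    rw [e, ← Matrix.smul_mul, ← Matrix.mul_smul]
    congr 2
    ext i j
    by_cases h : i = j
    · subst h; simp [rdiag]
    · simp [rdiag, h]
  rw [e2, vn_conj (rdiag_psd hcd) h1 h2, vn_rdiag hcd, hS]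
  conv_rhs => rw [e, trace_conj h1, trace_rdiag]
  simp only [negMulLog_mul, sum_add_distrib, ← mul_sum, ← sum_mul]
  ring

theorem conj_rdiag_apply (U : Matrix n n ℂ) (d : n → ℝ) (i : n) :
    ((U * rdiag d * Uᴴ) i i).re = ∑ j, Complex.normSq (U i j) * d j := by
  rw [Matrix.mul_apply, Complex.re_sum]
  refine sum_congr rfl fun j _ => ?_
  rw [rdiag, mul_diagonal, conjTranspose_apply, mul_right_comm, Complex.star_def,
    Complex.mul_conj, ← Complex.ofReal_mul, Complex.ofReal_re]

/-- Pinching to the diagonal increases the entropy. -/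
theorem vn_le_diag {A : Matrix n n ℂ} (hA : A.PosSemidef) :
    vnEntropy A ≤ ∑ i, negMulLog (A i i).re := by
  obtain ⟨U, d, h1, h2, hd, e, hS⟩ := exists_spec hA
  have hr : ∀ i, ∑ j, Complex.normSq (U i j) = 1 := by
    intro i
    have := congrArg (fun M : Matrix n n ℂ => (M i i).re) h2
    simp only [Matrix.mul_apply, conjTranspose_apply, Complex.star_def, Complex.mul_conj,
      one_apply_eq, Complex.one_re, Complex.re_sum, Complex.ofReal_re] at this
    exact this
  have hc : ∀ j, ∑ i, Complex.normSq (U i j) = 1 := by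
    intro j
    have := congrArg (fun M : Matrix n n ℂ => (M j j).re) h1
    simp only [Matrix.mul_apply, conjTranspose_apply, Complex.star_def, Complex.conj_mul',
      one_apply_eq, Complex.one_re, Complex.re_sum, ← Complex.ofReal_pow, Complex.ofReal_re,
      Complex.sq_norm] at this
    exact this
  rw [hS]
  calc ∑ j, negMulLog (d j) = ∑ i, ∑ j, Complex.normSq (U i j) * negMulLog (d j) := by
        rw [sum_comm]
        simp only [← sum_mul, hc, one_mul]
    _ ≤ _ := by
        refine sum_le_sum fun i _ => ?_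
        conv_rhs => rw [e, conj_rdiag_apply]
        exact concaveOn_negMulLog.le_map_sum (fun j _ => Complex.normSq_nonneg _) (hr i)
          fun j _ => hd j

theorem vn_le_diag_conj {A U : Matrix n n ℂ} (hA : A.PosSemidef) (h1 : Uᴴ * U = 1)
    (h2 : U * Uᴴ = 1) : vnEntropy A ≤ ∑ i, negMulLog ((Uᴴ * A * U) i i).re := by
  have := vn_conj (U := Uᴴ) hA (by rwa [conjTranspose_conjTranspose])
    (by rwa [conjTranspose_conjTranspose])
  rw [conjTranspose_conjTranspose] at this
  rw [← this]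
  exact vn_le_diag (hA.conjTranspose_mul_mul_same U)

theorem sum_diag_conj {U : Matrix n n ℂ} (h2 : U * Uᴴ = 1) (A : Matrix n n ℂ) :
    ∑ i, ((Uᴴ * A * U) i i).re = A.trace.re := by
  rw [← Complex.re_sum]
  congr 1
  change (Uᴴ * A * U).trace = _
  rw [trace_mul_cycle, h2, Matrix.one_mul]

theorem conj_conj {U : Matrix n n ℂ} (h1 : Uᴴ * U = 1) (D : Matrix n n ℂ) :
    Uᴴ * (U * D * Uᴴ) * U = D := by
  rw [← Matrix.mul_assoc, ← Matrix.mul_assoc, h1, Matrix.one_mul, Matrix.mul_assoc, h1,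
    Matrix.mul_one]

/-- Concavity of the entropy, unnormalised. -/
theorem vn_add {A B : Matrix n n ℂ} (hA : A.PosSemidef) (hB : B.PosSemidef) :
    vnEntropy A + vnEntropy B + negMulLog (A.trace.re + B.trace.re) ≤
      vnEntropy (A + B) + negMulLog A.trace.re + negMulLog B.trace.re := by
  obtain ⟨U, d, h1, h2, hd, e, hS⟩ := exists_spec (hA.add hB)
  have k := classical_subadd
    (fun (b : Bool) i => if b then ((Uᴴ * A * U) i i).re else ((Uᴴ * B * U) i i).re) (by
      intro b i
      split_ifs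
      · exact diag_re_nonneg (hA.conjTranspose_mul_mul_same U) i
      · exact diag_re_nonneg (hB.conjTranspose_mul_mul_same U) i)
  have e3 : ∀ i, ((Uᴴ * A * U) i i).re + ((Uᴴ * B * U) i i).re = d i := by
    intro i
    rw [← Complex.add_re, ← Matrix.add_apply, ← Matrix.add_mul, ← Matrix.mul_add, e, conj_conj h1]
    simp [rdiag]
  simp only [Fintype.sum_bool, if_true, Bool.false_eq_true, if_false, sum_diag_conj h2, e3] at k
  have kA := vn_le_diag_conj hA h1 h2
  have kB := vn_le_diag_conj hB h1 h2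
  linarith

theorem psd_block₁₁ {A : Matrix n n ℂ} {B : Matrix n m ℂ} {C : Matrix m n ℂ} {D : Matrix m m ℂ}
    (h : (fromBlocks A B C D).PosSemidef) : A.PosSemidef := h.submatrix Sum.inl

theorem psd_block₂₂ {A : Matrix n n ℂ} {B : Matrix n m ℂ} {C : Matrix m n ℂ} {D : Matrix m m ℂ}
    (h : (fromBlocks A B C D).PosSemidef) : D.PosSemidef := h.submatrix Sum.inr

/-- Subadditivity, with the two-level factor pinched. -/
theorem vn_blocks_le {A B C D : Matrix n n ℂ} (h : (fromBlocks A B C D).PosSemidef) :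
    vnEntropy (fromBlocks A B C D) + negMulLog (A.trace.re + D.trace.re) ≤
      vnEntropy (A + D) + negMulLog A.trace.re + negMulLog D.trace.re := by
  have hA := psd_block₁₁ h
  have hD := psd_block₂₂ h
  obtain ⟨U, d, h1, h2, hd, e, hS⟩ := exists_spec (hA.add hD)
  have k := classical_subadd
    (fun (b : Bool) i => if b then ((Uᴴ * A * U) i i).re else ((Uᴴ * D * U) i i).re) (by
      intro b i
      split_ifs
      · exact diag_re_nonneg (hA.conjTranspose_mul_mul_same U) i
      · exact diag_re_nonneg (hD.conjTranspose_mul_mul_same U) i)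
  have e3 : ∀ i, ((Uᴴ * A * U) i i).re + ((Uᴴ * D * U) i i).re = d i := by
    intro i
    rw [← Complex.add_re, ← Matrix.add_apply, ← Matrix.add_mul, ← Matrix.mul_add, e, conj_conj h1]
    simp [rdiag]
  simp only [Fintype.sum_bool, if_true, Bool.false_eq_true, if_false, sum_diag_conj h2, e3] at k
  have k2 := vn_le_diag_conj (U := fromBlocks U 0 0 U) h
    (by simp [fromBlocks_conjTranspose, fromBlocks_multiply, h1])
    (by simp [fromBlocks_conjTranspose, fromBlocks_multiply, h2])
  simp only [fromBlocks_conjTranspose, fromBlocks_multiply, conjTranspose_zero, Matrix.zero_mul,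
    Matrix.mul_zero, add_zero, zero_add, Fintype.sum_sum_type, fromBlocks_apply₁₁,
    fromBlocks_apply₂₂] at k2
  linarith

theorem vn_kron {A : Matrix n n ℂ} {B : Matrix m m ℂ} (hA : A.PosSemidef) (hB : B.PosSemidef) :
    vnEntropy (A ⊗ₖ B) = B.trace.re * vnEntropy A + A.trace.re * vnEntropy B := by
  obtain ⟨U, d, h1, h2, hd, e, hS⟩ := exists_spec hA
  obtain ⟨V, d', h1', h2', hd', e', hS'⟩ := exists_spec hB
  have hdd : ∀ p : n × m, 0 ≤ d p.1 * d' p.2 := fun p => mul_nonneg (hd _) (hd' _)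
  have e2 : A ⊗ₖ B = (U ⊗ₖ V) * rdiag (fun p : n × m => d p.1 * d' p.2) * (U ⊗ₖ V)ᴴ := by
    rw [e, e', conjTranspose_kronecker, mul_kronecker_mul, mul_kronecker_mul]
    congr 2
    simp only [rdiag, diagonal_kronecker_diagonal, Complex.ofReal_mul]
  rw [e2, vn_conj (rdiag_psd hdd)
    (by rw [conjTranspose_kronecker, ← mul_kronecker_mul, h1, h1', one_kronecker_one])
    (by rw [conjTranspose_kronecker, ← mul_kronecker_mul, h2, h2', one_kronecker_one]),
    vn_rdiag hdd, hS, hS']
  conv_rhs => rw [e, e', trace_conj h1, trace_conj h1', trace_rdiag, trace_rdiag]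
  simp only [Fintype.sum_prod_type, negMulLog_mul, sum_add_distrib, ← mul_sum, ← sum_mul]

/-- The entropy of a real symmetric `2 × 2` matrix. -/
theorem vn_two {A : Matrix Bool Bool ℂ} (hA : A.PosSemidef) {a b c : ℝ} (h00 : A false false = a)
    (h11 : A true true = b) (h01 : A false true = c) (h10 : A true false = c)
    (ha : 0 ≤ a) (hb : 0 ≤ b) (hc : c ^ 2 ≤ a * b) :
    vnEntropy A = E2 (a + b) (a * b - c ^ 2) := by
  refine (prim_ldet hA).unique (prim_E2 (by positivity) (by linarith)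
    (by nlinarith [sq_nonneg (a - b), sq_nonneg c])) ?_ fun s hs => ?_
  · simp [trace, h00, h11, add_comm]
  · unfold ldet
    rw [← det_submatrix_equiv_self finTwoEquiv, det_fin_two]
    have e0 : finTwoEquiv 0 = false := rfl
    have e1 : finTwoEquiv 1 = true := rfl
    simp only [submatrix_apply, Matrix.add_apply, Matrix.smul_apply, smul_eq_mul, e0, e1]
    norm_num [h00, h11, h01, h10, one_apply]
    congr 1
    field_simp
    ring

end Crest.Agent.R341
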