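import Crest.Agent.R341.Core
import Crest.Prelude.Def_AmpDamp

/-! Row 341: channels, Kraus form of the generalized amplitude damping map, tensor powers. -/

set_option autoImplicit false
set_option linter.unusedSectionVars false

namespace Crest.Agent.R341

open Real Finset Matrix Crest.Quantum Crest.MathPhysics.AmpDamp
open scoped ComplexOrder Kronecker

variable {d e : Type*} [Fintype d] [DecidableEq d] [Fintype e] [DecidableEq e]

theorem cp_blocks {Ψ : Matrix d d ℂ → Matrix e e ℂ} (hΨ : IsCompletelyPositive Ψ)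
    {ρ : Matrix (Bool × d) (Bool × d) ℂ} (hρ : ρ.PosSemidef) :
    (fromBlocks (Ψ (block ρ false false)) (Ψ (block ρ false true)) (Ψ (block ρ true false))
      (Ψ (block ρ true true))).PosSemidef := by
  have h := (hΨ 2 _ (hρ.submatrix (fun p : Fin 2 × d => (finTwoEquiv p.1, p.2)))).submatrix
    (Sum.elim (fun i : e => ((0 : Fin 2), i)) (fun i : e => ((1 : Fin 2), i)))
  convert h using 1
  ext (i | i) (j | j) <;> rfl

theorem cp_pos {Ψ : Matrix d d ℂ → Matrix e e ℂ} (hΨ : IsCompletelyPositive Ψ)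
    {ρ : Matrix d d ℂ} (hρ : ρ.PosSemidef) : (Ψ ρ).PosSemidef :=
  (hΨ 1 _ (hρ.submatrix (fun p : Fin 1 × d => p.2))).submatrix (fun i : e => ((0 : Fin 1), i))

theorem block_psd {ρ : Matrix (Bool × d) (Bool × d) ℂ} (hρ : ρ.PosSemidef) (s : Bool) :
    (block ρ s s).PosSemidef := hρ.submatrix fun i => (s, i)

theorem trace_block (ρ : Matrix (Bool × d) (Bool × d) ℂ) :
    (block ρ false false).trace + (block ρ true true).trace = ρ.trace := by
  simp [trace, Fintype.sum_prod_type, block, add_comm]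

theorem isCP_kraus {κ : Type*} [Fintype κ] (V : κ → Matrix e d ℂ) :
    IsCompletelyPositive fun X : Matrix d d ℂ => ∑ k, V k * X * (V k)ᴴ := by
  intro k M hM
  have : blockwise (k := Fin k) (fun X : Matrix d d ℂ => ∑ k, V k * X * (V k)ᴴ) M =
      ∑ j, ((1 : Matrix (Fin k) (Fin k) ℂ) ⊗ₖ V j) * M *
        ((1 : Matrix (Fin k) (Fin k) ℂ) ⊗ₖ V j)ᴴ := by
    ext ⟨s, a⟩ ⟨t, b⟩
    simp [blockwise, block, Matrix.sum_apply, Matrix.mul_apply, Fintype.sum_prod_type,
      Matrix.one_apply, conjTranspose_apply, apply_ite (star : ℂ → ℂ)]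
  rw [this]
  exact posSemidef_sum _ fun j _ => hM.mul_mul_conjTranspose_same _

theorem coeff_gad (γ ν : ℝ) (s t s' t' : Bool) :
    qubitCoeff (gadMap γ ν) s t s' t' =
      ((if s = t then
        (if s' = t' then
          (if s then (if s' then 1 - γ + γ * ν else γ * ν)
            else (if s' then γ * (1 - ν) else 1 - γ * ν)) else 0)
        else if s = s' ∧ t = t' then √(1 - γ) else 0 : ℝ) : ℂ) := by
  cases s <;> cases t <;> cases s' <;> cases t' <;> simp [qubitCoeff, gadMap]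

/-- Kraus operators of the generalized amplitude damping map -/
noncomputable def kr (γ ν : ℝ) (k : Bool × Bool) (s s' : Bool) : ℝ :=
  if k.1 then
    (if k.2 then (if s = s' then √ν * (if s then 1 else √(1 - γ)) else 0)
      else (if s = true ∧ s' = false then √ν * √γ else 0))
  else
    (if k.2 then (if s = s' then √(1 - ν) * (if s then √(1 - γ) else 1) else 0)
      else (if s = false ∧ s' = true then √(1 - ν) * √γ else 0))

theorem coeff_kraus {γ ν : ℝ} (hγ : γ ∈ Set.Icc (0 : ℝ) 1) (hν : ν ∈ Set.Icc (0 : ℝ) 1)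
    (s t s' t' : Bool) :
    qubitCoeff (gadMap γ ν) s t s' t' = ∑ k, (kr γ ν k s s' : ℂ) * (kr γ ν k t t' : ℂ) := by
  have h1 := mul_self_sqrt hγ.1
  have h2 := mul_self_sqrt hν.1
  have h3 := mul_self_sqrt (sub_nonneg.2 hγ.2)
  have h4 := mul_self_sqrt (sub_nonneg.2 hν.2)
  rw [coeff_gad]
  simp only [← Complex.ofReal_mul, ← Complex.ofReal_sum]
  congr 1
  unfold kr
  generalize √γ = a at *
  generalize √ν = b at *
  generalize √(1 - γ) = c at *
  generalize √(1 - ν) = f at *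
  cases s <;> cases t <;> cases s' <;> cases t' <;> simp [Fintype.sum_prod_type]
  · linear_combination (-(c * c)) * h2 - ν * h3 - h4
  · linear_combination (-(a * a)) * h4 - (1 - ν) * h1
  · linear_combination (-c) * h2 - c * h4
  · linear_combination (-c) * h2 - c * h4
  · linear_combination (-(a * a)) * h2 - ν * h1
  · linear_combination (-(c * c)) * h4 - (1 - ν) * h3 - h2

theorem qubitPower_kraus {γ ν : ℝ} (hγ : γ ∈ Set.Icc (0 : ℝ) 1) (hν : ν ∈ Set.Icc (0 : ℝ) 1)
    (n : ℕ) : qubitPower n (gadMap γ ν) = fun M =>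
      ∑ κ : Fin n → Bool × Bool,
        (Matrix.of fun σ σ' : Fin n → Bool => ∏ i, (kr γ ν (κ i) (σ i) (σ' i) : ℂ)) * M *
        (Matrix.of fun σ σ' : Fin n → Bool => ∏ i, (kr γ ν (κ i) (σ i) (σ' i) : ℂ))ᴴ := by
  funext M
  ext σ τ
  simp only [qubitPower, of_apply, coeff_kraus hγ hν, Matrix.sum_apply, Matrix.mul_apply,
    conjTranspose_apply, star_prod, Complex.star_def, Complex.conj_ofReal, prod_univ_sum,
    Fintype.piFinset_univ, sum_mul, prod_mul_distrib]
  rw [sum_comm]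
  conv_rhs => rw [sum_comm]
  refine sum_congr rfl fun τ' _ => ?_
  rw [sum_comm]
  refine sum_congr rfl fun κ _ => sum_congr rfl fun σ' _ => by ring

theorem isChannel_power {γ ν : ℝ} (hγ : γ ∈ Set.Icc (0 : ℝ) 1) (hν : ν ∈ Set.Icc (0 : ℝ) 1)
    (n : ℕ) : IsChannel (qubitPower n (gadMap γ ν)) := by
  refine ⟨⟨fun X Y => ?_, fun c X => ?_⟩, ?_, fun M => ?_⟩
  · ext σ τ
    simp [qubitPower, mul_add, sum_add_distrib]
  · ext σ τ
    simp [qubitPower, mul_sum, mul_left_comm]
  · rw [qubitPower_kraus hγ hν]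
    exact isCP_kraus _
  · have h : ∀ s' t' : Bool, ∑ s, qubitCoeff (gadMap γ ν) s s s' t' = if s' = t' then 1 else 0 := by
      intro s' t'
      cases s' <;> cases t' <;> simp [coeff_gad]
      ring
    simp only [trace, diag_apply, qubitPower, of_apply]
    rw [sum_comm]
    refine sum_congr rfl fun σ' _ => ?_
    rw [sum_comm]
    have h2 : ∀ τ' : Fin n → Bool,
        ∑ σ : Fin n → Bool, (∏ i, qubitCoeff (gadMap γ ν) (σ i) (σ i) (σ' i) (τ' i)) * M σ' τ' =
          if σ' = τ' then M σ' τ' else 0 := by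
      intro τ'
      have := prod_univ_sum (fun _ : Fin n => (univ : Finset Bool))
        (fun i s => qubitCoeff (gadMap γ ν) s s (σ' i) (τ' i))
      rw [Fintype.piFinset_univ] at this
      rw [← sum_mul, ← this]
      simp only [h, prod_ite_zero, prod_const_one, mem_univ, true_implies]
      simp only [← funext_iff]
      split_ifs <;> simp
    simp [h2]

theorem qubitPower_succ (Φ : Matrix Bool Bool ℂ → Matrix Bool Bool ℂ) (n : ℕ)
    (M : Matrix (Fin (n + 1) → Bool) (Fin (n + 1) → Bool) ℂ) :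
    (qubitPower (n + 1) Φ M).submatrix (Fin.consEquiv fun _ => Bool) (Fin.consEquiv fun _ => Bool) =
      qubitTensor Φ (qubitPower n Φ)
        (M.submatrix (Fin.consEquiv fun _ => Bool) (Fin.consEquiv fun _ => Bool)) := by
  ext ⟨s, σ⟩ ⟨t, τ⟩
  simp only [submatrix_apply, qubitPower, qubitTensor, of_apply, block]
  rw [← (Fin.consEquiv fun _ : Fin (n + 1) => Bool).sum_comp, Fintype.sum_prod_type]
  refine sum_congr rfl fun s' _ => ?_
  simp only [mul_sum]
  rw [sum_comm, ← (Fin.consEquiv fun _ : Fin (n + 1) => Bool).sum_comp, Fintype.sum_prod_type]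
  refine sum_congr rfl fun t' _ => ?_
  rw [sum_comm]
  refine sum_congr rfl fun σ' _ => sum_congr rfl fun τ' _ => ?_
  simp [Fin.prod_univ_succ, Fin.consEquiv, mul_assoc]

theorem gadMap_psd {γ ν : ℝ} (hγ : γ ∈ Set.Icc (0 : ℝ) 1) (hν : ν ∈ Set.Icc (0 : ℝ) 1)
    {M : Matrix Bool Bool ℂ} (hM : M.PosSemidef) : (gadMap γ ν M).PosSemidef := by
  have : gadMap γ ν M = ∑ k : Bool × Bool, (Matrix.of fun s s' => (kr γ ν k s s' : ℂ)) * M *
      (Matrix.of fun s s' => (kr γ ν k s s' : ℂ))ᴴ := by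
    ext s t
    have h1 : gadMap γ ν M s t = ∑ s', ∑ t', qubitCoeff (gadMap γ ν) s t s' t' * M s' t' := by
      cases s <;> cases t <;> simp [coeff_gad, gadMap, add_comm]
    rw [h1]
    simp only [coeff_kraus hγ hν, Matrix.sum_apply, Matrix.mul_apply, conjTranspose_apply,
      of_apply, Complex.star_def, Complex.conj_ofReal, sum_mul]
    rw [sum_comm]
    conv_rhs => rw [sum_comm]
    refine sum_congr rfl fun τ' _ => ?_
    rw [sum_comm]
    refine sum_congr rfl fun κ _ => sum_congr rfl fun σ' _ => by ring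
  rw [this]
  exact posSemidef_sum _ fun j _ => hM.mul_mul_conjTranspose_same _

theorem gadMap_trace (γ ν : ℝ) (M : Matrix Bool Bool ℂ) : (gadMap γ ν M).trace = M.trace := by
  simp [trace, gadMap]
  ring

theorem tensor_psd {γ ν : ℝ} (hγ : γ ∈ Set.Icc (0 : ℝ) 1) (hν : ν ∈ Set.Icc (0 : ℝ) 1)
    {Ψ : Matrix d d ℂ → Matrix e e ℂ} (hΨ : IsCompletelyPositive Ψ)
    {ρ : Matrix (Bool × d) (Bool × d) ℂ} (hρ : ρ.PosSemidef) :
    (qubitTensor (gadMap γ ν) Ψ ρ).PosSemidef := by
  have h0 : (blockwise (k := Bool) Ψ ρ).PosSemidef := by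
    have := (cp_blocks hΨ hρ).submatrix (Equiv.boolProdEquivSum e)
    convert this using 1
    ext ⟨s, i⟩ ⟨t, j⟩
    cases s <;> cases t <;> rfl
  have : qubitTensor (gadMap γ ν) Ψ ρ = ∑ k : Bool × Bool,
      ((Matrix.of fun s s' => (kr γ ν k s s' : ℂ)) ⊗ₖ (1 : Matrix e e ℂ)) *
        blockwise (k := Bool) Ψ ρ *
      ((Matrix.of fun s s' => (kr γ ν k s s' : ℂ)) ⊗ₖ (1 : Matrix e e ℂ))ᴴ := by
    ext ⟨s, i⟩ ⟨t, j⟩
    simp only [qubitTensor, coeff_kraus hγ hν, Matrix.sum_apply, Matrix.mul_apply,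
      conjTranspose_apply, of_apply, sum_mul, Fintype.sum_prod_type (α₁ := Bool) (α₂ := e),
      kroneckerMap_apply, one_apply, blockwise, mul_ite, mul_one, mul_zero, ite_mul, zero_mul,
      apply_ite (star : ℂ → ℂ), star_zero, sum_ite_eq, mem_univ, if_true, Complex.star_def,
      Complex.conj_ofReal]
    rw [sum_comm]
    conv_rhs => rw [sum_comm]
    refine sum_congr rfl fun τ' _ => ?_
    rw [sum_comm]
    refine sum_congr rfl fun κ _ => sum_congr rfl fun σ' _ => by ring
  rw [this]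
  exact posSemidef_sum _ fun j _ => h0.mul_mul_conjTranspose_same _

theorem tensor_blocks (γ ν : ℝ) (Ψ : Matrix d d ℂ → Matrix e e ℂ)
    (ρ : Matrix (Bool × d) (Bool × d) ℂ) :
    (qubitTensor (gadMap γ ν) Ψ ρ).submatrix (Equiv.boolProdEquivSum e).symm
      (Equiv.boolProdEquivSum e).symm =
    fromBlocks
      (((1 - γ * ν : ℝ) : ℂ) • Ψ (block ρ false false) +
        ((γ * (1 - ν) : ℝ) : ℂ) • Ψ (block ρ true true))
      ((√(1 - γ) : ℂ) • Ψ (block ρ false true)) ((√(1 - γ) : ℂ) • Ψ (block ρ true false))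
      (((γ * ν : ℝ) : ℂ) • Ψ (block ρ false false) +
        ((1 - γ + γ * ν : ℝ) : ℂ) • Ψ (block ρ true true)) := by
  ext (i | i) (j | j) <;> simp [qubitTensor, coeff_gad, add_comm]

end Crest.Agent.R341
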