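import Crest.Agent.R341.Prim

/-! Row 341: convexity of the minimal output entropy at fixed population (Wootters' function). -/

set_option autoImplicit false

namespace Crest.Agent.R341

open Real Filter Topology Finset

/-- entropy as a function of the concurrence -/
noncomputable def woot (c : ℝ) : ℝ := binEntropy ((1 + √(1 - c ^ 2)) / 2)

theorem le_half_log {r : ℝ} (h0 : 0 ≤ r) (h1 : r < 1) : r ≤ (log (1 + r) - log (1 - r)) / 2 := by
  have hm : MonotoneOn (fun r : ℝ => (log (1 + r) - log (1 - r)) / 2 - r) (Set.Ico 0 1) := by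
    have hd : ∀ x ∈ Set.Ioo (-1 : ℝ) 1,
        HasDerivAt (fun r : ℝ => (log (1 + r) - log (1 - r)) / 2 - r)
          ((1 / (1 + x) - (-1) / (1 - x)) / 2 - 1) x := by
      intro x hx
      have a1 : 1 + x ≠ 0 := by linarith [hx.1]
      have a2 : 1 - x ≠ 0 := by linarith [hx.2]
      exact (((((hasDerivAt_id x).const_add 1).log a1).sub
        (((hasDerivAt_id x).const_sub 1).log a2)).div_const 2).sub (hasDerivAt_id x)
    refine monotoneOn_of_deriv_nonneg (convex_Ico 0 1) ?_ ?_ ?_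
    · exact fun x hx => (hd x ⟨by linarith [hx.1], hx.2⟩).continuousAt.continuousWithinAt
    · rw [interior_Ico]
      exact fun x hx => (hd x ⟨by linarith [hx.1], hx.2⟩).differentiableAt.differentiableWithinAt
    · rw [interior_Ico]
      intro x hx
      rw [(hd x ⟨by linarith [hx.1], hx.2⟩).deriv]
      have a1 : 0 < 1 + x := by linarith [hx.1]
      have a2 : 0 < 1 - x := by linarith [hx.2]
      have : (1 / (1 + x) - (-1) / (1 - x)) / 2 - 1 = x ^ 2 / ((1 + x) * (1 - x)) := by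
        field_simp
        ring
      rw [this]
      positivity
  have := hm ⟨le_rfl, one_pos⟩ ⟨h0, h1⟩ h0
  simp only [add_zero, log_one, sub_zero, sub_self, zero_div] at this
  linarith

theorem hasDerivAt_rt {c : ℝ} (h0 : 0 < c) (h1 : c < 1) :
    HasDerivAt (fun c : ℝ => √(1 - c ^ 2)) (-c / √(1 - c ^ 2)) c := by
  have hp : 0 < 1 - c ^ 2 := by nlinarith
  have := (((hasDerivAt_id c).pow 2).const_sub 1).sqrt hp.ne'
  refine this.congr_deriv ?_
  have := sqrt_pos.2 hp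
  simp only [id, Pi.pow_apply]
  field_simp
  ring

theorem rt_mem {c : ℝ} (h0 : 0 < c) (h1 : c < 1) : 0 < √(1 - c ^ 2) ∧ √(1 - c ^ 2) < 1 :=
  ⟨sqrt_pos.2 (by nlinarith), by
    rw [sqrt_lt' one_pos]; nlinarith⟩

theorem hasDerivAt_woot {c : ℝ} (h0 : 0 < c) (h1 : c < 1) :
    HasDerivAt woot (c * ((log (1 + √(1 - c ^ 2)) - log (1 - √(1 - c ^ 2))) / 2 / √(1 - c ^ 2)))
      c := by
  obtain ⟨r0, r1⟩ := rt_mem h0 h1
  have h2 := (hasDerivAt_binEntropy (p := (1 + √(1 - c ^ 2)) / 2) (by positivity)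
    (by linarith)).comp c (((hasDerivAt_rt h0 h1).const_add 1).div_const 2)
  refine h2.congr_deriv ?_
  rw [show 1 - (1 + √(1 - c ^ 2)) / 2 = (1 - √(1 - c ^ 2)) / 2 by ring,
    log_div (by linarith) two_ne_zero, log_div (by linarith) two_ne_zero]
  field_simp
  ring

theorem hasDerivAt_woot' {c : ℝ} (h0 : 0 < c) (h1 : c < 1) :
    HasDerivAt (fun c : ℝ =>
      c * ((log (1 + √(1 - c ^ 2)) - log (1 - √(1 - c ^ 2))) / 2 / √(1 - c ^ 2)))
      (((log (1 + √(1 - c ^ 2)) - log (1 - √(1 - c ^ 2))) / 2 - √(1 - c ^ 2)) / √(1 - c ^ 2) ^ 3)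
      c := by
  obtain ⟨r0, r1⟩ := rt_mem h0 h1
  have hr := hasDerivAt_rt h0 h1
  have a1 : 1 + √(1 - c ^ 2) ≠ 0 := by linarith
  have a2 : 1 - √(1 - c ^ 2) ≠ 0 := by linarith
  have h2 := (hasDerivAt_id c).mul
    (((((hr.const_add 1).log a1).sub ((hr.const_sub 1).log a2)).div_const 2).div hr r0.ne')
  refine h2.congr_deriv ?_
  have h3 : √(1 - c ^ 2) ^ 2 = 1 - c ^ 2 := sq_sqrt (by nlinarith)
  simp only [id, Pi.div_apply, Pi.sub_apply]
  generalize √(1 - c ^ 2) = r at *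
  have h4 : c ^ 2 = (1 - r) * (1 + r) := by linarith
  generalize log (1 + r) - log (1 - r) = w
  have e : 1 * (w / 2 / r) + c * (((-c / r / (1 + r) - -(-c / r) / (1 - r)) / 2 * r -
      w / 2 * (-c / r)) / r ^ 2) =
      w / 2 / r + c ^ 2 * (((-1 / r / (1 + r) - (1 / r) / (1 - r)) / 2 * r +
      w / 2 * (1 / r)) / r ^ 2) := by ring
  rw [e, h4]
  field_simp
  ring

theorem continuous_woot : Continuous woot := by
  unfold woot
  fun_prop

theorem convexOn_woot : ConvexOn ℝ (Set.Icc 0 1) woot := by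
  refine convexOn_of_hasDerivWithinAt2_nonneg (convex_Icc 0 1) continuous_woot.continuousOn
    (f' := fun c => c * ((log (1 + √(1 - c ^ 2)) - log (1 - √(1 - c ^ 2))) / 2 / √(1 - c ^ 2)))
    (f'' := fun c => ((log (1 + √(1 - c ^ 2)) - log (1 - √(1 - c ^ 2))) / 2 - √(1 - c ^ 2)) /
      √(1 - c ^ 2) ^ 3) ?_ ?_ ?_
  · rw [interior_Icc]
    exact fun c hc => (hasDerivAt_woot hc.1 hc.2).hasDerivWithinAt
  · rw [interior_Icc]
    exact fun c hc => (hasDerivAt_woot' hc.1 hc.2).hasDerivWithinAt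
  · rw [interior_Icc]
    intro c hc
    obtain ⟨r0, r1⟩ := rt_mem hc.1 hc.2
    exact div_nonneg (sub_nonneg.2 (le_half_log r0.le r1)) (by positivity)

theorem monotoneOn_woot : MonotoneOn woot (Set.Icc 0 1) := by
  intro a ha b hb hab
  have h1 : √(1 - b ^ 2) ≤ √(1 - a ^ 2) := sqrt_le_sqrt (by nlinarith [ha.1])
  have h2 : √(1 - a ^ 2) ≤ 1 := sqrt_le_one.2 (by nlinarith)
  have h3 := sqrt_nonneg (1 - b ^ 2)
  exact binEntropy_strictAntiOn.antitoneOn ⟨by linarith, by linarith⟩ ⟨by linarith, by linarith⟩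
    (by linarith)

/-- Jensen's inequality for `p ↦ E2 1 (A + B (p - ν)²)`. -/
theorem jensen_E2 {ι : Type*} [Fintype ι] {A B ν : ℝ} (hA : 0 ≤ A) (hB : 0 ≤ B) {q p : ι → ℝ}
    (hq : ∀ a, 0 ≤ q a) (hq1 : ∑ a, q a = 1) (hp : ∀ a, 4 * (A + B * (p a - ν) ^ 2) ≤ 1) :
    E2 1 (A + B * (∑ a, q a * p a - ν) ^ 2) ≤ ∑ a, q a * E2 1 (A + B * (p a - ν) ^ 2) := by
  have hw : ∀ t : ℝ, E2 1 (A + B * (t - ν) ^ 2) =
      woot ‖(⟨2 * √A, 2 * √B * (t - ν)⟩ : ℂ)‖ := by
    intro t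
    rw [E2_one, woot, Complex.sq_norm, Complex.normSq_mk]
    congr 4
    have h1 := mul_self_sqrt hA
    have h2 := mul_self_sqrt hB
    linear_combination 4 * h1 + 4 * (t - ν) ^ 2 * h2
  have hn : ∀ a, ‖(⟨2 * √A, 2 * √B * (p a - ν)⟩ : ℂ)‖ ∈ Set.Icc (0 : ℝ) 1 := by
    intro a
    refine ⟨norm_nonneg _, ?_⟩
    rw [← sq_le_one_iff₀ (norm_nonneg _), Complex.sq_norm, Complex.normSq_mk]
    have h1 := mul_self_sqrt hA
    have h2 := mul_self_sqrt hB
    have := hp a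
    linear_combination this + 4 * h1 + 4 * (p a - ν) ^ 2 * h2
  simp only [hw]
  have e : (⟨2 * √A, 2 * √B * (∑ a, q a * p a - ν)⟩ : ℂ) =
      ∑ a, q a • (⟨2 * √A, 2 * √B * (p a - ν)⟩ : ℂ) := by
    apply Complex.ext
    · simp only [Complex.re_sum, Complex.smul_re, smul_eq_mul, ← sum_mul, hq1, one_mul]
    · simp only [Complex.im_sum, Complex.smul_im, smul_eq_mul]
      have : ∀ a, q a * (2 * √B * (p a - ν)) = 2 * √B * (q a * p a) - q a * (2 * √B * ν) :=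
        fun a => by ring
      simp only [this, sum_sub_distrib, ← mul_sum, ← sum_mul, hq1]
      ring
  have hJ := convexOn_woot.map_sum_le (t := univ) (w := q)
    (p := fun a => ‖(⟨2 * √A, 2 * √B * (p a - ν)⟩ : ℂ)‖) (fun a _ => hq a) hq1 fun a _ => hn a
  have hle : ‖∑ a, q a • (⟨2 * √A, 2 * √B * (p a - ν)⟩ : ℂ)‖ ≤
      ∑ a, q a • ‖(⟨2 * √A, 2 * √B * (p a - ν)⟩ : ℂ)‖ := by
    refine (norm_sum_le _ _).trans (le_of_eq (sum_congr rfl fun a _ => ?_))
    rw [norm_smul, Real.norm_of_nonneg (hq a), smul_eq_mul]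
  have hmem : ∑ a, q a • ‖(⟨2 * √A, 2 * √B * (p a - ν)⟩ : ℂ)‖ ∈ Set.Icc (0 : ℝ) 1 :=
    (convex_Icc 0 1).sum_mem (fun a _ => hq a) hq1 fun a _ => hn a
  rw [e]
  exact (monotoneOn_woot ⟨norm_nonneg _, hle.trans hmem.2⟩ hmem hle).trans hJ

end Crest.Agent.R341
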