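import Crest.Agent.R341.Path

/-! Row 341: the key entropy inequality for the generalized amplitude damping map on a block
matrix. -/

set_option autoImplicit false
set_option linter.unusedSectionVars false

namespace Crest.Agent.R341

open Real Finset Matrix Crest.Quantum
open scoped ComplexOrder

variable {n : Type*} [Fintype n] [DecidableEq n]

theorem ct_smul (c : ℝ) (Z : Matrix n n ℂ) : ((c : ℂ) • Z)ᴴ = (c : ℂ) • Zᴴ := by
  rw [conjTranspose_smul, Complex.star_def, Complex.conj_ofReal]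

theorem trace_smul_re (c : ℝ) (X : Matrix n n ℂ) : ((c : ℂ) • X).trace.re = c * X.trace.re := by
  rw [trace_smul, smul_eq_mul, Complex.re_ofReal_mul]

theorem psd_scale {X Z Y : Matrix n n ℂ} (hM : (fromBlocks X Z Zᴴ Y).PosSemidef) (s t : ℝ) :
    (fromBlocks (((s ^ 2 : ℝ) : ℂ) • X) (((s * t : ℝ) : ℂ) • Z) (((s * t : ℝ) : ℂ) • Z)ᴴ
      (((t ^ 2 : ℝ) : ℂ) • Y)).PosSemidef := by
  have h := hM.mul_mul_conjTranspose_same
    (fromBlocks ((s : ℂ) • (1 : Matrix n n ℂ)) 0 0 ((t : ℂ) • (1 : Matrix n n ℂ)))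
  rw [fromBlocks_conjTranspose, ct_smul, ct_smul, fromBlocks_multiply, fromBlocks_multiply] at h
  rw [ct_smul]
  simp only [Matrix.zero_mul, conjTranspose_zero, Matrix.mul_zero, add_zero, zero_add,
    conjTranspose_one, Matrix.smul_mul, Matrix.mul_smul, Matrix.one_mul, Matrix.mul_one,
    smul_smul, ← Complex.ofReal_mul] at h
  rw [sq, sq]
  rwa [mul_comm t s] at h

theorem psd_swap {X Z Y : Matrix n n ℂ} (hM : (fromBlocks X Z Zᴴ Y).PosSemidef) :
    (fromBlocks Y Zᴴ Zᴴᴴ X).PosSemidef := by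
  have := hM.submatrix Sum.swap
  rwa [fromBlocks_submatrix_sum_swap_sum_swap, ← conjTranspose_conjTranspose Z,
    conjTranspose_conjTranspose Zᴴ] at this

theorem piece {X Z Y : Matrix n n ℂ} (hM : (fromBlocks X Z Zᴴ Y).PosSemidef) (s t : ℝ) {β : ℝ}
    (hβ : 0 ≤ β) :
    s ^ 2 * (vnEntropy X - negMulLog X.trace.re) +
      (t ^ 2 + β) * (vnEntropy Y - negMulLog Y.trace.re) +
      E2 (s ^ 2 * X.trace.re + t ^ 2 * Y.trace.re + β * Y.trace.re)
        (t ^ 2 * Y.trace.re * (β * Y.trace.re)) ≤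
      vnEntropy (fromBlocks (((s ^ 2 : ℝ) : ℂ) • X + (β : ℂ) • Y) (((s * t : ℝ) : ℂ) • Z)
        (((s * t : ℝ) : ℂ) • Z)ᴴ (((t ^ 2 : ℝ) : ℂ) • Y)) := by
  have hX := psd_block₁₁ hM
  have hY := psd_block₂₂ hM
  have h := three_path (psd_scale hM s t) (psd_smul hY hβ)
  rw [vn_smul hX (sq_nonneg s), vn_smul hY (sq_nonneg t), vn_smul hY hβ, trace_smul_re,
    trace_smul_re, trace_smul_re, phi, negMulLog_mul, negMulLog_mul, negMulLog_mul] at h
  linarith

theorem negMulLog_le_E2' {x y l : ℝ} (hx : 0 ≤ x) (hy : 0 ≤ y) (hl : 0 ≤ l) :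
    negMulLog (x + y + l) ≤ E2 (x + y + l) (y * l) :=
  negMulLog_le_E2 (by positivity) (by positivity) (by nlinarith [sq_nonneg (y - l)])

theorem core_gen {X Z Y : Matrix n n ℂ} (hM : (fromBlocks X Z Zᴴ Y).PosSemidef)
    {α β γ δ e s₀ t₀ s₁ t₁ : ℝ} (hβ : 0 ≤ β) (hγ : 0 ≤ γ) (h1 : α + γ = 1) (h2 : β + δ = 1)
    (hs : s₀ ^ 2 + s₁ ^ 2 = α) (ht : t₀ ^ 2 + t₁ ^ 2 = δ) (he : s₀ * t₀ + s₁ * t₁ = e) :
    vnEntropy X - negMulLog X.trace.re + (vnEntropy Y - negMulLog Y.trace.re) +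
      negMulLog (X.trace.re + Y.trace.re) +
      (E2 (s₀ ^ 2 * X.trace.re + t₀ ^ 2 * Y.trace.re + β * Y.trace.re)
        (t₀ ^ 2 * Y.trace.re * (β * Y.trace.re)) -
        negMulLog (s₀ ^ 2 * X.trace.re + t₀ ^ 2 * Y.trace.re + β * Y.trace.re)) +
      (E2 (t₁ ^ 2 * Y.trace.re + s₁ ^ 2 * X.trace.re + γ * X.trace.re)
        (s₁ ^ 2 * X.trace.re * (γ * X.trace.re)) -
        negMulLog (t₁ ^ 2 * Y.trace.re + s₁ ^ 2 * X.trace.re + γ * X.trace.re)) ≤
      vnEntropy (fromBlocks ((α : ℂ) • X + (β : ℂ) • Y) ((e : ℂ) • Z) ((e : ℂ) • Z)ᴴ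
        ((γ : ℂ) • X + (δ : ℂ) • Y)) := by
  have hX := psd_block₁₁ hM
  have hY := psd_block₂₂ hM
  have p0 := piece hM s₀ t₀ hβ
  have p1 := piece (psd_swap hM) t₁ s₁ hγ
  have q0 := psd_add_block (psd_scale hM s₀ t₀) (psd_smul hY hβ)
  have q1 := psd_add_block (psd_scale (psd_swap hM) t₁ s₁) (psd_smul hX hγ)
  have q1' := q1.submatrix (Equiv.sumComm n n)
  have r1 := vn_submatrix q1 (Equiv.sumComm n n)
  rw [Equiv.sumComm_apply, fromBlocks_submatrix_sum_swap_sum_swap] at q1' r1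
  have k := vn_add q0 q1'
  rw [r1, fromBlocks_add, trace_blocks, trace_blocks] at k
  have e1 : ((s₀ ^ 2 : ℝ) : ℂ) • X + (β : ℂ) • Y + ((s₁ ^ 2 : ℝ) : ℂ) • X =
      (α : ℂ) • X + (β : ℂ) • Y := by
    rw [← hs, Complex.ofReal_add, add_smul]; abel
  have e2 : ((s₀ * t₀ : ℝ) : ℂ) • Z + (((t₁ * s₁ : ℝ) : ℂ) • Zᴴ)ᴴ = (e : ℂ) • Z := by
    rw [ct_smul, conjTranspose_conjTranspose, ← he, Complex.ofReal_add, add_smul, mul_comm t₁]
  have e3 : (((s₀ * t₀ : ℝ) : ℂ) • Z)ᴴ + ((t₁ * s₁ : ℝ) : ℂ) • Zᴴ = ((e : ℂ) • Z)ᴴ := by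
    rw [ct_smul, ct_smul, ← he, Complex.ofReal_add, add_smul, mul_comm t₁]
  have e4 : ((t₀ ^ 2 : ℝ) : ℂ) • Y + (((t₁ ^ 2 : ℝ) : ℂ) • Y + (γ : ℂ) • X) =
      (γ : ℂ) • X + (δ : ℂ) • Y := by
    rw [← ht, Complex.ofReal_add, add_smul]; abel
  rw [e1, e2, e3, e4] at k
  simp only [trace_add, Complex.add_re, trace_smul_re] at k
  generalize X.trace.re = x at *
  generalize Y.trace.re = y at *
  have f1 : s₀ ^ 2 * x + β * y + t₀ ^ 2 * y + (s₁ ^ 2 * x + (t₁ ^ 2 * y + γ * x)) = x + y := by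
    linear_combination x * hs + y * ht + x * h1 + y * h2
  rw [f1, show s₀ ^ 2 * x + β * y + t₀ ^ 2 * y = s₀ ^ 2 * x + t₀ ^ 2 * y + β * y by ring,
    show s₁ ^ 2 * x + (t₁ ^ 2 * y + γ * x) = t₁ ^ 2 * y + s₁ ^ 2 * x + γ * x by ring] at k
  have f2 : s₀ ^ 2 * (vnEntropy X - negMulLog x) + (s₁ ^ 2 + γ) * (vnEntropy X - negMulLog x) =
      vnEntropy X - negMulLog x := by
    linear_combination (vnEntropy X - negMulLog x) * (hs + h1)
  have f3 : (t₀ ^ 2 + β) * (vnEntropy Y - negMulLog y) + t₁ ^ 2 * (vnEntropy Y - negMulLog y) =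
      vnEntropy Y - negMulLog y := by
    linear_combination (vnEntropy Y - negMulLog y) * (ht + h2)
  linarith

/-- The key inequality. -/
theorem core {X Z Y : Matrix n n ℂ} (hM : (fromBlocks X Z Zᴴ Y).PosSemidef)
    {α β γ δ η : ℝ} (hα : 0 ≤ α) (hβ : 0 ≤ β) (hγ : 0 ≤ γ) (hδ : 0 ≤ δ) (hη : 0 ≤ η)
    (h1 : α + γ = 1) (h2 : β + δ = 1) (h3 : α * δ = η + β * γ) :
    vnEntropy X - negMulLog X.trace.re + (vnEntropy Y - negMulLog Y.trace.re) +
      E2 (X.trace.re + Y.trace.re) (α * γ * X.trace.re ^ 2 +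
        2 * β * γ * X.trace.re * Y.trace.re + β * δ * Y.trace.re ^ 2) ≤
      vnEntropy (fromBlocks ((α : ℂ) • X + (β : ℂ) • Y) ((√η : ℂ) • Z) ((√η : ℂ) • Z)ᴴ
        ((γ : ℂ) • X + (δ : ℂ) • Y)) := by
  have hx := trace_re_nonneg (psd_block₁₁ hM)
  have hy := trace_re_nonneg (psd_block₂₂ hM)
  have hg := fun s₀ t₀ s₁ t₁ => core_gen hM (e := √η) (s₀ := s₀) (t₀ := t₀) (s₁ := s₁) (t₁ := t₁)
    hβ hγ h1 h2
  generalize X.trace.re = x at *
  generalize Y.trace.re = y at *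
  obtain ⟨v, hv⟩ : ∃ v, v = α * γ * x ^ 2 + 2 * β * γ * x * y + β * δ * y ^ 2 := ⟨_, rfl⟩
  rw [← hv]
  have hv0 : 0 ≤ v := by rw [hv]; positivity
  have he := sq_sqrt hη
  rcases hv0.eq_or_lt with h0 | h0
  · have hd : 0 ≤ δ - η / α := by
      rcases hα.eq_or_lt with h | h
      · rw [← h, div_zero, sub_zero]; exact hδ
      · rw [sub_nonneg, div_le_iff₀ h]; nlinarith [mul_nonneg hβ hγ]
    have k := hg (√α) (√η / √α) 0 (√(δ - η / α)) (by rw [sq_sqrt hα]; ring)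
      (by rw [div_pow, sq_sqrt hα, he, sq_sqrt hd]; ring) (by
        rcases hα.eq_or_lt with h | h
        · have : η = 0 := by rw [← h] at h3; nlinarith [mul_nonneg hβ hγ]
          simp [this]
        · have := sqrt_pos.2 h
          field_simp
          ring)
    have k1 := negMulLog_le_E2' (x := √α ^ 2 * x) (y := (√η / √α) ^ 2 * y) (l := β * y)
      (by positivity) (by positivity) (by positivity)
    have k2 := negMulLog_le_E2' (x := √(δ - η / α) ^ 2 * y) (y := 0 ^ 2 * x) (l := γ * x)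
      (by positivity) (by positivity) (by positivity)
    rw [← h0, E2_zero (by positivity)]
    linarith
  · have hr : √(β / v) ^ 2 = β / v := sq_sqrt (by positivity)
    have hr' : √(γ / v) ^ 2 = γ / v := sq_sqrt (by positivity)
    generalize √(β / v) = r at hr
    generalize √(γ / v) = r' at hr'
    generalize √η = e at *
    have k := hg (r * e * y) (r * (γ * x + δ * y)) (r' * (α * x + β * y)) (r' * e * x)
      (by
        rw [mul_pow, mul_pow, mul_pow, hr, hr', he]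
        field_simp
        rw [hv]
        linear_combination (-(β * y ^ 2)) * h3)
      (by
        rw [mul_pow, mul_pow, mul_pow, hr, hr', he]
        field_simp
        rw [hv]
        linear_combination (-(γ * x ^ 2)) * h3)
      (by
        have : r * e * y * (r * (γ * x + δ * y)) + r' * (α * x + β * y) * (r' * e * x) =
            e * (r ^ 2 * (y * (γ * x + δ * y)) + r' ^ 2 * (x * (α * x + β * y))) := by ring
        rw [this, hr, hr']
        field_simp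
        rw [hv]
        ring)
    obtain ⟨l₀, hl₀⟩ : ∃ l, l = β * y * (γ * x + δ * y) / v := ⟨_, rfl⟩
    obtain ⟨l₁, hl₁⟩ : ∃ l, l = γ * x * (α * x + β * y) / v := ⟨_, rfl⟩
    have a0 : (r * e * y) ^ 2 * x + (r * (γ * x + δ * y)) ^ 2 * y + β * y = l₀ * (x + y) := by
      rw [mul_pow, mul_pow, mul_pow, hr, he, hl₀]
      field_simp
      rw [hv]
      linear_combination (-(β * x * y ^ 2)) * h3 + (β * y * (γ * x + δ * y) * x) * h1 +
        (β * y * (γ * x + δ * y) * y) * h2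
    have a1 : (r' * e * x) ^ 2 * y + (r' * (α * x + β * y)) ^ 2 * x + γ * x = l₁ * (x + y) := by
      rw [mul_pow, mul_pow, mul_pow, hr', he, hl₁]
      field_simp
      rw [hv]
      linear_combination (-(γ * y * x ^ 2)) * h3 + (γ * x * (α * x + β * y) * x) * h1 +
        (γ * x * (α * x + β * y) * y) * h2
    have b0 : (r * (γ * x + δ * y)) ^ 2 * y * (β * y) = l₀ ^ 2 * v := by
      rw [mul_pow, hr, hl₀]
      field_simp
    have b1 : (r' * (α * x + β * y)) ^ 2 * x * (γ * x) = l₁ ^ 2 * v := by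
      rw [mul_pow, hr', hl₁]
      field_simp
    have c : l₀ + l₁ = 1 := by
      rw [hl₀, hl₁]
      field_simp
      rw [hv]
      ring
    rw [a0, a1, b0, b1, E2_smul (by rw [hl₀]; positivity), E2_smul (by rw [hl₁]; positivity)] at k
    have : l₀ * (E2 (x + y) v - negMulLog (x + y)) + l₁ * (E2 (x + y) v - negMulLog (x + y)) =
        E2 (x + y) v - negMulLog (x + y) := by
      rw [← add_mul, c, one_mul]
    linarith

end Crest.Agent.R341
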