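import Crest.Agent.R341.Ent

/-! Row 341: a determinant inequality (Schur complement induction). -/

set_option autoImplicit false
set_option linter.unusedSectionVars false

namespace Crest.Agent.R341

open Real Finset Matrix
open scoped ComplexOrder

variable {n : Type*} [Fintype n] [DecidableEq n]

theorem herm_dot {G : Matrix n n ℂ} (hG : G.IsHermitian) (u v : n → ℂ) :
    star u ⬝ᵥ G *ᵥ v = star (star v ⬝ᵥ G *ᵥ u) := by
  rw [star_dotProduct, star_mulVec, hG.eq, ← dotProduct_mulVec]

theorem herm_diag {G : Matrix n n ℂ} (hG : G.IsHermitian) (k : n) : G k k = ((G k k).re : ℂ) :=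
  (Complex.conj_eq_iff_re.1 (hG.apply k k)).symm

theorem star_single_dot (k : n) (t : ℝ) (v : n → ℂ) :
    star (Pi.single k (t : ℂ) : n → ℂ) ⬝ᵥ v = t * v k := by
  rw [← Pi.single_star, single_dotProduct, Complex.star_def, Complex.conj_ofReal]

theorem mulVec_single_apply (G : Matrix n n ℂ) (k : n) (t : ℂ) (i : n) :
    (G *ᵥ Pi.single k t) i = G i k * t := by
  simp [mulVec, dotProduct_single]

theorem cs_inv {G : Matrix n n ℂ} (hG : G.PosDef) (w : n → ℂ) (k : n) {d : ℝ} (hw : w k = d) :
    d ^ 2 / (G k k).re ≤ (star w ⬝ᵥ G⁻¹ *ᵥ w).re := by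
  have hp : 0 < (G k k).re := (Complex.pos_iff.1 (hG.diag_pos (i := k))).1
  obtain ⟨u, hu⟩ : ∃ u, u = G⁻¹ *ᵥ w := ⟨_, rfl⟩
  have hGu : G *ᵥ u = w := by
    rw [hu, mulVec_mulVec, mul_nonsing_inv _ ((isUnit_iff_isUnit_det _).1 hG.isUnit), one_mulVec]
  obtain ⟨t, ht⟩ : ∃ t, t = d / (G k k).re := ⟨_, rfl⟩
  have h0 := hG.posSemidef.re_dotProduct_nonneg (u - Pi.single k (t : ℂ))
  have e1 : star u ⬝ᵥ G *ᵥ Pi.single k (t : ℂ) = (t * d : ℝ) := by
    rw [herm_dot hG.1, hGu, star_single_dot, hw, ← Complex.ofReal_mul, Complex.star_def,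
      Complex.conj_ofReal]
  have e2 : (star u ⬝ᵥ w).re = (star w ⬝ᵥ u).re := by
    rw [star_dotProduct, Complex.star_def, Complex.conj_re]
  rw [star_sub, mulVec_sub, sub_dotProduct, dotProduct_sub, dotProduct_sub, e1, hGu,
    star_single_dot, star_single_dot, mulVec_single_apply, hw, herm_diag hG.1 k] at h0
  simp only [RCLike.re_to_complex, Complex.sub_re, ← Complex.ofReal_mul, Complex.ofReal_re] at h0
  rw [← hu, ← e2]
  have e3 : d ^ 2 / (G k k).re = t * d + (t * d - t * ((G k k).re * t)) := by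
    rw [ht]; field_simp; ring
  linarith

theorem det_add_ge {P : Matrix n n ℂ} (hP : P.PosDef) (Q : Matrix n n ℂ) (x : n → ℝ)
    (S : Finset n) :
    ∀ D : Matrix n n ℂ, D.PosSemidef → (∀ i ∉ S, ∀ j, D i j = 0) →
      (∀ ξ ζ : n → ℂ, (∀ i ∉ S, ξ i = 0) →
        2 * (∑ i, star (ξ i) * x i * ζ i).re ≤
          (star ξ ⬝ᵥ Q *ᵥ ξ).re + (star ζ ⬝ᵥ D *ᵥ ζ).re) →
      P.det.re * ∏ i ∈ S, (1 + x i ^ 2 / ((P i i).re * (Q i i).re)) ≤ (P + D).det.re := by
  induction S using Finset.induction_on with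
  | empty =>
    intro D _ h0 _
    have : D = 0 := by ext i j; exact h0 i (by simp) j
    simp [this]
  | insert k S hk ih =>
    intro D hD h0 hq
    obtain ⟨d, hd⟩ : ∃ d, d = (D k k).re := ⟨_, rfl⟩
    have hd0 : 0 ≤ d := hd ▸ diag_re_nonneg hD k
    have hDkk : D k k = d := by rw [hd]; exact herm_diag hD.1 k
    have hp : 0 < (P k k).re := (Complex.pos_iff.1 (hP.diag_pos (i := k))).1
    -- the diagonal entry is large
    have hqk : ∀ t r : ℝ, 2 * (t * x k * r) ≤ t ^ 2 * (Q k k).re + r ^ 2 * d := by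
      intro t r
      have := hq (Pi.single k (t : ℂ)) (Pi.single k (r : ℂ)) (fun i hi => by
        rw [Pi.single_eq_of_ne]
        rintro rfl
        exact hi (mem_insert_self _ _))
      rw [star_single_dot, star_single_dot, mulVec_single_apply, mulVec_single_apply, hDkk,
        sum_eq_single k (fun i _ hi => by simp [Pi.single_eq_of_ne hi]) (by simp)] at this
      simp only [Pi.single_eq_same, Complex.star_def, Complex.conj_ofReal, ← Complex.ofReal_mul,
        Complex.ofReal_re, Complex.re_ofReal_mul, Complex.re_mul_ofReal] at this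
      linarith
    have hq0 : 0 ≤ (Q k k).re := by simpa using hqk 1 0
    have hxd : x k ^ 2 / (Q k k).re ≤ d := by
      rcases hq0.eq_or_lt with h | h
      · rw [← h, div_zero]; exact hd0
      · have := hqk (x k / (Q k k).re) 1
        have e : (x k / (Q k k).re) ^ 2 * (Q k k).re = x k ^ 2 / (Q k k).re := by field_simp
        have e' : x k / (Q k k).re * x k * 1 = x k ^ 2 / (Q k k).re := by field_simp
        rw [e, e'] at this
        linarith
    -- the Schur complement
    have hrow : d = 0 → ∀ j, D j k = 0 := by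
      intro h j
      have h1 := (hD.dotProduct_mulVec_zero_iff (Pi.single k ((1 : ℝ) : ℂ))).1 (by
        rw [star_single_dot, mulVec_single_apply, hDkk, h]; simp)
      have := congrFun h1 j
      rw [mulVec_single_apply] at this
      simpa using this
    let w : n → ℂ := fun i => D i k
    let D' : Matrix n n ℂ := D - ((d⁻¹ : ℝ) : ℂ) • vecMulVec w (star w)
    have hD'ij : ∀ i j, D' i j = D i j - ((d⁻¹ : ℝ) : ℂ) * (D i k * D k j) := by
      intro i j
      simp only [D', w, Matrix.sub_apply, Matrix.smul_apply, vecMulVec_apply, Pi.star_apply,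
        smul_eq_mul, hD.1.apply]
    have hD'k : ∀ j, D' k j = 0 := by
      intro j
      rw [hD'ij, hDkk]
      rcases eq_or_ne d 0 with h | h
      · rw [← hD.1.apply k j, hrow h j]; simp
      · rw [← mul_assoc, ← Complex.ofReal_mul, inv_mul_cancel₀ h]; simp
    have hD'v : ∀ ζ : n → ℂ,
        D' *ᵥ ζ = D *ᵥ (ζ - Pi.single k (((d⁻¹ : ℝ) : ℂ) * (D *ᵥ ζ) k)) := by
      intro ζ
      funext i
      rw [mulVec_sub, Pi.sub_apply, mulVec_single_apply]
      simp only [mulVec, dotProduct, hD'ij, sub_mul, sum_sub_distrib, mul_sum]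
      congr 1
      exact sum_congr rfl fun j _ => by ring
    have hD'q : ∀ ζ : n → ℂ, star ζ ⬝ᵥ D' *ᵥ ζ =
        star (ζ - Pi.single k (((d⁻¹ : ℝ) : ℂ) * (D *ᵥ ζ) k)) ⬝ᵥ
          D *ᵥ (ζ - Pi.single k (((d⁻¹ : ℝ) : ℂ) * (D *ᵥ ζ) k)) := by
      intro ζ
      rw [← hD'v, star_sub, sub_dotProduct, ← Pi.single_star, single_dotProduct]
      have : (D' *ᵥ ζ) k = 0 := by simp [mulVec, dotProduct, hD'k]
      rw [this, mul_zero, sub_zero]
    have hD'h : D'.IsHermitian := by
      refine hD.1.sub ?_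
      exact (psd_smul (posSemidef_vecMulVec_self_star w) (inv_nonneg.2 hd0)).1
    have hD' : D'.PosSemidef := PosSemidef.of_dotProduct_mulVec_nonneg hD'h fun ζ => by
      rw [hD'q]; exact hD.dotProduct_mulVec_nonneg _
    have hG : (P + D').PosDef := hP.add_posSemidef hD'
    have h1 := ih D' hD' (by
        intro i hi j
        by_cases hik : i = k
        · rw [hik]; exact hD'k j
        · have hi' : i ∉ insert k S := by simp [hik, hi]
          rw [hD'ij, h0 i hi' j, h0 i hi' k]; simp)
      (by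
        intro ξ ζ hξ
        rw [hD'q]
        refine le_trans (le_of_eq ?_) (hq ξ _ fun i hi => hξ i fun h => hi (mem_insert_of_mem h))
        congr 2
        refine sum_congr rfl fun i _ => ?_
        by_cases hik : i = k
        · rw [hik, hξ k hk]; simp
        · simp [Pi.single_eq_of_ne hik])
    have e1 : P + D = (P + D') +
        replicateCol Unit (((d⁻¹ : ℝ) : ℂ) • w) * replicateRow Unit (star w) := by
      rw [← vecMulVec_eq, smul_vecMulVec]
      simp only [D']
      abel
    have e2 : (P + D).det = (P + D').det *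
        (1 + ((d⁻¹ : ℝ) : ℂ) * (star w ⬝ᵥ (P + D')⁻¹ *ᵥ w)) := by
      rw [e1, det_add_replicateCol_mul_replicateRow ((isUnit_iff_isUnit_det _).1 hG.isUnit)]
      congr 1
      rw [det_unique, Matrix.mul_assoc, ← replicateCol_mulVec, Matrix.add_apply, one_apply_eq,
        replicateRow_mul_replicateCol_apply, mulVec_smul, dotProduct_smul, smul_eq_mul]
    have hdet := Complex.pos_iff.1 hG.det_pos
    have e3 : (P + D).det.re =
        (P + D').det.re * (1 + d⁻¹ * (star w ⬝ᵥ (P + D')⁻¹ *ᵥ w).re) := by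
      rw [e2, Complex.mul_re, ← hdet.2]
      simp
    have h2 := cs_inv hG w k (d := d) hDkk
    rw [Matrix.add_apply, hD'k, add_zero] at h2
    have h3 : x k ^ 2 / ((P k k).re * (Q k k).re) ≤ d⁻¹ * (star w ⬝ᵥ (P + D')⁻¹ *ᵥ w).re := by
      refine le_trans ?_ (mul_le_mul_of_nonneg_left h2 (inv_nonneg.2 hd0))
      rw [mul_comm (P k k).re, ← div_div]
      refine (div_le_div_of_nonneg_right hxd hp.le).trans (le_of_eq ?_)
      rcases eq_or_ne d 0 with h | h
      · simp [h]
      · field_simp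
    rw [prod_insert hk, e3, mul_left_comm, mul_comm]
    have h4 : 0 ≤ x k ^ 2 / ((P k k).re * (Q k k).re) := by positivity
    exact mul_le_mul h1 (by linarith) (by linarith) hdet.1.le

end Crest.Agent.R341
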