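import Crest.Agent.R341.Chan
import Crest.Agent.R341.Convex

/-! Row 341: additivity of the Holevo capacity and of the minimal output entropy. -/

set_option autoImplicit false
set_option linter.unusedSectionVars false

namespace Crest.Agent.R341

open Real Finset Matrix Crest.Quantum Crest.MathPhysics.AmpDamp
open scoped ComplexOrder Kronecker

variable {d e : Type*} [Fintype d] [DecidableEq d] [Fintype e] [DecidableEq e]

/-- minimal output entropy at excited population `p` -/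
noncomputable def gg (γ ν p : ℝ) : ℝ := E2 1 (γ * ν * (1 - ν) + γ * (1 - γ) * (p - ν) ^ 2)

theorem gadRate_eq (γ ν p : ℝ) :
    gadRate γ ν p = binEntropy ((1 - γ) * p + γ * ν) - gg γ ν p := by
  rw [gadRate, gg, E2_one]

/-- Holevo information of a family indexed by a finite type -/
noncomputable def HI {ι : Type*} [Fintype ι] (Φ : Matrix d d ℂ → Matrix e e ℂ) (q : ι → ℝ)
    (ρ : ι → Matrix d d ℂ) : ℝ :=
  vnEntropy (∑ a, (q a : ℂ) • Φ (ρ a)) - ∑ a, q a * vnEntropy (Φ (ρ a))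

/-- ensembles indexed by a finite type -/
def Ens {ι : Type*} [Fintype ι] (q : ι → ℝ) (ρ : ι → Matrix d d ℂ) : Prop :=
  (∀ a, 0 ≤ q a) ∧ ∑ a, q a = 1 ∧ ∀ a, IsDensity (ρ a)

theorem Ens.fin {ι : Type*} [Fintype ι] {q : ι → ℝ} {ρ : ι → Matrix d d ℂ} (h : Ens q ρ)
    (Φ : Matrix d d ℂ → Matrix e e ℂ) :
    ∃ (m : ℕ) (q' : Fin m → ℝ) (ρ' : Fin m → Matrix d d ℂ), IsEnsemble q' ρ' ∧
      holevoInfo Φ q' ρ' = HI Φ q ρ := by
  let E := (Fintype.equivFin ι).symm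
  refine ⟨_, fun a => q (E a), fun a => ρ (E a), ⟨fun a => h.1 _, ?_, fun a => h.2.2 _⟩, ?_⟩
  · rw [E.sum_comp q, h.2.1]
  · rw [holevoInfo, HI, E.sum_comp fun a => (q a : ℂ) • Φ (ρ a),
      E.sum_comp fun a => q a * vnEntropy (Φ (ρ a))]

theorem psd_trace_eq {B : Matrix d d ℂ} (hB : B.PosSemidef) : B.trace = (B.trace.re : ℂ) :=
  Complex.ext rfl (by simpa using (Complex.nonneg_iff.1 hB.trace_nonneg).2.symm)

theorem exists_nrm [Nonempty d] {B : Matrix d d ℂ} (hB : B.PosSemidef) :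
    ∃ σ, IsDensity σ ∧ B = (B.trace.re : ℂ) • σ := by
  rcases (trace_re_nonneg hB).eq_or_lt with h | h
  · obtain ⟨i⟩ := ‹Nonempty d›
    refine ⟨rdiag (Pi.single i 1), ⟨rdiag_psd fun j => ?_, ?_⟩, ?_⟩
    · by_cases hj : j = i
      · simp [hj]
      · simp [hj]
    · simp [rdiag, trace_diagonal, Pi.single_apply, apply_ite ((↑) : ℝ → ℂ)]
    · have : B = 0 := hB.trace_eq_zero_iff.1 (by rw [psd_trace_eq hB, ← h]; simp)
      rw [← h, this]; simp
  · refine ⟨((B.trace.re⁻¹ : ℝ) : ℂ) • B, ⟨psd_smul hB (by positivity), ?_⟩, ?_⟩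
    · rw [trace_smul, smul_eq_mul]
      nth_rewrite 2 [psd_trace_eq hB]
      rw [← Complex.ofReal_mul, inv_mul_cancel₀ h.ne', Complex.ofReal_one]
    · rw [smul_smul, ← Complex.ofReal_mul, mul_inv_cancel₀ h.ne', Complex.ofReal_one, one_smul]

theorem vn_chan_smul {Ψ : Matrix d d ℂ → Matrix e e ℂ} (hΨ : IsChannel Ψ) {σ : Matrix d d ℂ}
    (hσ : IsDensity σ) {t : ℝ} (ht : 0 ≤ t) :
    vnEntropy (Ψ ((t : ℂ) • σ)) - negMulLog t = t * vnEntropy (Ψ σ) := by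
  rw [hΨ.1.map_smul, vn_smul (cp_pos hΨ.2.1 hσ.1) ht, hΨ.2.2, hσ.2]
  simp

theorem block_sum_one {ρ : Matrix (Bool × d) (Bool × d) ℂ} (hρ : IsDensity ρ) :
    (block ρ false false).trace.re + (block ρ true true).trace.re = 1 := by
  rw [← Complex.add_re, trace_block, hρ.2, Complex.one_re]

section
variable {γ ν : ℝ} (hγ : γ ∈ Set.Icc (0 : ℝ) 1) (hν : ν ∈ Set.Icc (0 : ℝ) 1)
include hγ hν

theorem lower {Ψ : Matrix d d ℂ → Matrix e e ℂ} (hΨ : IsChannel Ψ)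
    {ρ : Matrix (Bool × d) (Bool × d) ℂ} (hρ : IsDensity ρ) :
    vnEntropy (Ψ (block ρ false false)) - negMulLog (block ρ false false).trace.re +
      (vnEntropy (Ψ (block ρ true true)) - negMulLog (block ρ true true).trace.re) +
      gg γ ν (block ρ true true).trace.re ≤ vnEntropy (qubitTensor (gadMap γ ν) Ψ ρ) := by
  obtain ⟨g0, g1⟩ := hγ
  obtain ⟨n0, n1⟩ := hν
  have hM := cp_blocks hΨ.2.1 hρ.1
  have hZ : Ψ (block ρ true false) = (Ψ (block ρ false true))ᴴ :=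
    (isHermitian_fromBlocks_iff.1 hM.1).2.1.symm
  rw [hZ] at hM
  have h := core hM (α := 1 - γ * ν) (β := γ * (1 - ν)) (γ := γ * ν) (δ := 1 - γ + γ * ν)
    (η := 1 - γ) (by nlinarith) (mul_nonneg g0 (by linarith)) (by positivity) (by nlinarith)
    (by linarith) (by ring) (by ring) (by ring)
  rw [← vn_submatrix (tensor_psd ⟨g0, g1⟩ ⟨n0, n1⟩ hΨ.2.1 hρ.1) (Equiv.boolProdEquivSum e).symm,
    tensor_blocks, hZ, ← ct_smul]
  rw [hΨ.2.2, hΨ.2.2] at h
  have h1 := block_sum_one hρ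
  refine le_trans (le_of_eq ?_) h
  rw [h1, gg, show (block ρ false false).trace.re = 1 - (block ρ true true).trace.re by linarith]
  congr 2
  ring

theorem upper {Ψ : Matrix d d ℂ → Matrix e e ℂ} (hΨ : IsChannel Ψ)
    {ρ : Matrix (Bool × d) (Bool × d) ℂ} (hρ : IsDensity ρ) :
    vnEntropy (qubitTensor (gadMap γ ν) Ψ ρ) ≤
      binEntropy ((1 - γ) * (block ρ true true).trace.re + γ * ν) +
        vnEntropy (Ψ (block ρ false false) + Ψ (block ρ true true)) := by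
  have hN := (tensor_psd hγ hν hΨ.2.1 hρ.1).submatrix (Equiv.boolProdEquivSum e).symm
  rw [← vn_submatrix (tensor_psd hγ hν hΨ.2.1 hρ.1) (Equiv.boolProdEquivSum e).symm]
  rw [tensor_blocks] at hN ⊢
  have h := vn_blocks_le hN
  have e1 : ((1 - γ * ν : ℝ) : ℂ) • Ψ (block ρ false false) +
        ((γ * (1 - ν) : ℝ) : ℂ) • Ψ (block ρ true true) +
      (((γ * ν : ℝ) : ℂ) • Ψ (block ρ false false) +
        ((1 - γ + γ * ν : ℝ) : ℂ) • Ψ (block ρ true true)) =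
      Ψ (block ρ false false) + Ψ (block ρ true true) := by
    ext i j
    simp only [Matrix.add_apply, Matrix.smul_apply, smul_eq_mul]
    push_cast
    ring
  rw [e1] at h
  simp only [trace_add, Complex.add_re, trace_smul_re, hΨ.2.2 _] at h
  have h1 := block_sum_one hρ
  rw [show (block ρ false false).trace.re = 1 - (block ρ true true).trace.re by linarith] at h
  generalize (block ρ true true).trace.re = y at *
  rw [show (1 - γ * ν) * (1 - y) + γ * (1 - ν) * y + (γ * ν * (1 - y) + (1 - γ + γ * ν) * y) = 1 by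
    ring, show (1 - γ * ν) * (1 - y) + γ * (1 - ν) * y = 1 - ((1 - γ) * y + γ * ν) by ring,
    show γ * ν * (1 - y) + (1 - γ + γ * ν) * y = (1 - γ) * y + γ * ν by ring, negMulLog_one] at h
  rw [binEntropy_eq_negMulLog_add_negMulLog_one_sub]
  linarith

end

/-- the pure state with excited population `p` and real coherence of sign `b` -/
noncomputable def st (p : ℝ) (b : Bool) : Matrix Bool Bool ℂ :=
  vecMulVec (fun s => ((if s then (if b then √p else -√p) else √(1 - p) : ℝ) : ℂ))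
    (star fun s => ((if s then (if b then √p else -√p) else √(1 - p) : ℝ) : ℂ))

theorem st_ff {p : ℝ} (hp : p ∈ Set.Icc (0 : ℝ) 1) (b : Bool) :
    st p b false false = ((1 - p : ℝ) : ℂ) := by
  simp only [st, vecMulVec_apply, Pi.star_apply, Complex.star_def, Complex.conj_ofReal,
    ← Complex.ofReal_mul]
  simp [mul_self_sqrt (sub_nonneg.2 hp.2)]

theorem st_tt {p : ℝ} (hp : p ∈ Set.Icc (0 : ℝ) 1) (b : Bool) : st p b true true = (p : ℂ) := by
  simp only [st, vecMulVec_apply, Pi.star_apply, Complex.star_def, Complex.conj_ofReal,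
    ← Complex.ofReal_mul]
  cases b <;> simp [mul_self_sqrt hp.1]

theorem st_ft (p : ℝ) (b : Bool) :
    st p b false true = (((if b then 1 else -1) * (√(1 - p) * √p) : ℝ) : ℂ) := by
  simp only [st, vecMulVec_apply, Pi.star_apply, Complex.star_def, Complex.conj_ofReal,
    ← Complex.ofReal_mul]
  cases b <;> simp

theorem st_tf (p : ℝ) (b : Bool) :
    st p b true false = (((if b then 1 else -1) * (√(1 - p) * √p) : ℝ) : ℂ) := by
  simp only [st, vecMulVec_apply, Pi.star_apply, Complex.star_def, Complex.conj_ofReal,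
    ← Complex.ofReal_mul]
  cases b <;> simp [mul_comm]

theorem st_density {p : ℝ} (hp : p ∈ Set.Icc (0 : ℝ) 1) (b : Bool) : IsDensity (st p b) :=
  ⟨posSemidef_vecMulVec_self_star _, by simp [trace, st_ff hp, st_tt hp]⟩

section
variable {γ ν : ℝ} (hγ : γ ∈ Set.Icc (0 : ℝ) 1) (hν : ν ∈ Set.Icc (0 : ℝ) 1)
include hγ hν

theorem vn_gad_st {p : ℝ} (hp : p ∈ Set.Icc (0 : ℝ) 1) (b : Bool) :
    vnEntropy (gadMap γ ν (st p b)) = gg γ ν p := by
  have hc : (√(1 - γ) * ((if b then 1 else -1) * (√(1 - p) * √p))) ^ 2 =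
      (1 - γ) * ((1 - p) * p) := by
    rw [mul_pow, mul_pow, mul_pow, sq_sqrt (sub_nonneg.2 hγ.2), sq_sqrt (sub_nonneg.2 hp.2),
      sq_sqrt hp.1]
    cases b <;> simp
  obtain ⟨g0, g1⟩ := hγ
  obtain ⟨n0, n1⟩ := hν
  obtain ⟨p0, p1⟩ := hp
  have a1 : 0 ≤ 1 - γ := by linarith
  have a2 : 0 ≤ 1 - ν := by linarith
  have a3 : 0 ≤ 1 - p := by linarith
  have a4 : 0 ≤ 1 - γ * ν := by nlinarith
  have hv : ((1 - γ * ν) * (1 - p) + γ * (1 - ν) * p) * (γ * ν * (1 - p) + (1 - γ + γ * ν) * p) -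
      (1 - γ) * ((1 - p) * p) = γ * ν * (1 - ν) + γ * (1 - γ) * (p - ν) ^ 2 := by ring
  rw [vn_two (gadMap_psd ⟨g0, g1⟩ ⟨n0, n1⟩ (st_density ⟨p0, p1⟩ b).1)
    (a := (1 - γ * ν) * (1 - p) + γ * (1 - ν) * p) (b := γ * ν * (1 - p) + (1 - γ + γ * ν) * p)
    (c := √(1 - γ) * ((if b then 1 else -1) * (√(1 - p) * √p)))
    (by simp [gadMap, st_ff ⟨p0, p1⟩, st_tt ⟨p0, p1⟩])
    (by simp [gadMap, st_ff ⟨p0, p1⟩, st_tt ⟨p0, p1⟩])
    (by cases b <;> simp [gadMap, st_ft]) (by cases b <;> simp [gadMap, st_tf])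
    (by positivity) (by positivity)
    (by rw [hc, ← sub_nonneg, hv]; positivity), hc, hv, gg]
  congr 1
  ring

theorem ens_one {ι : Type*} [Fintype ι] {q p : ι → ℝ} (hq : ∀ a, 0 ≤ q a) (hq1 : ∑ a, q a = 1)
    (hp : ∀ a, p a ∈ Set.Icc (0 : ℝ) 1) :
    Ens (fun a : ι × Bool => q a.1 / 2) (fun a => st (p a.1) a.2) ∧
      HI (gadMap γ ν) (fun a : ι × Bool => q a.1 / 2) (fun a => st (p a.1) a.2) =
        binEntropy ((1 - γ) * ∑ a, q a * p a + γ * ν) - ∑ a, q a * gg γ ν (p a) := by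
  refine ⟨⟨fun a => div_nonneg (hq _) two_pos.le, ?_, fun a => st_density (hp _) _⟩, ?_⟩
  · simp [Fintype.sum_prod_type, ← hq1, mul_div_cancel₀]
  have hP : ∑ a, q a * p a ∈ Set.Icc (0 : ℝ) 1 :=
    (convex_Icc 0 1).sum_mem (fun a _ => hq a) hq1 fun a _ => hp a
  have e1 : ∑ a : ι × Bool, ((q a.1 / 2 : ℝ) : ℂ) • gadMap γ ν (st (p a.1) a.2) =
      rdiag fun s => if s then (1 - γ) * ∑ a, q a * p a + γ * ν
        else 1 - ((1 - γ) * ∑ a, q a * p a + γ * ν) := by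
    have k1 : ∀ c : ℝ, c = ∑ a, q a * c := fun c => by rw [← sum_mul, hq1, one_mul]
    ext s t
    rw [Matrix.sum_apply, Fintype.sum_prod_type]
    cases s <;> cases t
    · simp only [Matrix.smul_apply, gadMap, of_apply, and_self, if_true, st_ff (hp _),
        st_tt (hp _), smul_eq_mul, ← Complex.ofReal_mul, ← Complex.ofReal_add,
        ← Complex.ofReal_sum, rdiag, diagonal_apply_eq, Bool.false_eq_true, if_false]
      congr 1
      rw [show 1 - ((1 - γ) * ∑ a, q a * p a + γ * ν) =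
        (1 - γ * ν) - (1 - γ) * ∑ a, q a * p a by ring, k1 (1 - γ * ν), mul_sum, ← sum_sub_distrib,
        ← k1]
      exact sum_congr rfl fun a _ => by simp; ring
    · simp [gadMap, st_ft, rdiag]
    · simp [gadMap, st_tf, rdiag]
    · simp only [Matrix.smul_apply, gadMap, of_apply, and_self, if_true, st_ff (hp _),
        st_tt (hp _), smul_eq_mul, ← Complex.ofReal_mul, ← Complex.ofReal_add,
        ← Complex.ofReal_sum, rdiag, diagonal_apply_eq, Bool.true_eq_false, if_false]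
      congr 1
      rw [k1 (γ * ν), mul_sum, ← sum_add_distrib, ← k1]
      exact sum_congr rfl fun a _ => by simp; ring
  rw [HI, e1, vn_rdiag, binEntropy_eq_negMulLog_add_negMulLog_one_sub]
  · simp only [Fintype.sum_bool, if_true, Bool.false_eq_true, if_false, Fintype.sum_prod_type,
      vn_gad_st hγ hν (hp _)]
    congr 1
    exact sum_congr rfl fun a _ => by ring
  · intro s
    obtain ⟨g0, g1⟩ := hγ
    obtain ⟨n0, n1⟩ := hν
    obtain ⟨p0, p1⟩ := hP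
    split_ifs
    · nlinarith
    · nlinarith

theorem main_upper [Nonempty d] {Ψ : Matrix d d ℂ → Matrix e e ℂ} (hΨ : IsChannel Ψ)
    {ι : Type} [Fintype ι] {q : ι → ℝ} {ρ : ι → Matrix (Bool × d) (Bool × d) ℂ} (h : Ens q ρ) :
    ∃ (p : ι → ℝ) (q₂ : ι × Bool → ℝ) (ρ₂ : ι × Bool → Matrix d d ℂ),
      (∀ a, p a ∈ Set.Icc (0 : ℝ) 1) ∧ Ens q₂ ρ₂ ∧
      HI (qubitTensor (gadMap γ ν) Ψ) q ρ ≤
        binEntropy ((1 - γ) * ∑ a, q a * p a + γ * ν) - ∑ a, q a * gg γ ν (p a) + HI Ψ q₂ ρ₂ := by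
  obtain ⟨hq, hq1, hρ⟩ := h
  choose σ hσ hσe using fun a : ι × Bool => exists_nrm (block_psd (hρ a.1).1 a.2)
  have ht : ∀ a s, 0 ≤ (block (ρ a) s s).trace.re := fun a s =>
    trace_re_nonneg (block_psd (hρ a).1 s)
  refine ⟨fun a => (block (ρ a) true true).trace.re,
    fun a => q a.1 * (block (ρ a.1) a.2 a.2).trace.re, σ, fun a => ⟨ht a true, ?_⟩,
    ⟨fun a => mul_nonneg (hq _) (ht _ _), ?_, hσ⟩, ?_⟩
  · linarith [block_sum_one (hρ a), ht a false]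
  · rw [Fintype.sum_prod_type, ← hq1]
    refine sum_congr rfl fun a _ => ?_
    rw [Fintype.sum_bool, ← mul_add, add_comm, block_sum_one (hρ a), mul_one]
  let L : Matrix d d ℂ →ₗ[ℂ] Matrix e e ℂ := hΨ.1.mk' Ψ
  have hL : ∀ X, Ψ X = L X := fun _ => rfl
  have hbar : IsDensity (∑ a, (q a : ℂ) • ρ a) := by
    refine ⟨posSemidef_sum _ fun a _ => psd_smul (hρ a).1 (hq a), ?_⟩
    simp only [trace_sum, trace_smul, (hρ _).2, smul_eq_mul, mul_one, ← Complex.ofReal_sum, hq1,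
      Complex.ofReal_one]
  have hblock : ∀ s t, block (∑ a, (q a : ℂ) • ρ a) s t = ∑ a, (q a : ℂ) • block (ρ a) s t := by
    intro s t
    ext i j
    simp [block, Matrix.sum_apply]
  have e1 : ∑ a, (q a : ℂ) • qubitTensor (gadMap γ ν) Ψ (ρ a) =
      qubitTensor (gadMap γ ν) Ψ (∑ a, (q a : ℂ) • ρ a) := by
    ext x y
    simp only [qubitTensor, Matrix.sum_apply, Matrix.smul_apply, of_apply, hblock, hL, map_sum,
      map_smul, smul_eq_mul, mul_sum]
    rw [sum_comm]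
    refine sum_congr rfl fun s _ => ?_
    rw [sum_comm]
    exact sum_congr rfl fun t _ => sum_congr rfl fun a _ => by ring
  have hu := upper hγ hν hΨ hbar
  have e2 : (block (∑ a, (q a : ℂ) • ρ a) true true).trace.re =
      ∑ a, q a * (block (ρ a) true true).trace.re := by
    rw [hblock, trace_sum, Complex.re_sum]
    exact sum_congr rfl fun a _ => trace_smul_re _ _
  have e3 : Ψ (block (∑ a, (q a : ℂ) • ρ a) false false) +
      Ψ (block (∑ a, (q a : ℂ) • ρ a) true true) =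
      ∑ a : ι × Bool, ((q a.1 * (block (ρ a.1) a.2 a.2).trace.re : ℝ) : ℂ) • Ψ (σ a) := by
    rw [hblock, hblock, Fintype.sum_prod_type]
    simp only [hL, map_sum, ← sum_add_distrib]
    refine sum_congr rfl fun a _ => ?_
    rw [Fintype.sum_bool, add_comm]
    simp only [Complex.ofReal_mul, ← smul_smul, ← map_smul]
    rw [← hσe (a, true), ← hσe (a, false)]
  have hl : ∀ a, (block (ρ a) true true).trace.re * vnEntropy (Ψ (σ (a, true))) +
      (block (ρ a) false false).trace.re * vnEntropy (Ψ (σ (a, false))) +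
      gg γ ν (block (ρ a) true true).trace.re ≤
      vnEntropy (qubitTensor (gadMap γ ν) Ψ (ρ a)) := by
    intro a
    have k := lower hγ hν hΨ (hρ a)
    have k1 := vn_chan_smul hΨ (hσ (a, true)) (ht a true)
    have k2 := vn_chan_smul hΨ (hσ (a, false)) (ht a false)
    rw [← hσe (a, true)] at k1
    rw [← hσe (a, false)] at k2
    linarith
  have hl' := sum_le_sum fun a (_ : a ∈ univ) => mul_le_mul_of_nonneg_left (hl a) (hq a)
  rw [e2, e3] at hu
  rw [HI, HI, e1, Fintype.sum_prod_type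
    (f := fun a : ι × Bool => q a.1 * (block (ρ a.1) a.2 a.2).trace.re * vnEntropy (Ψ (σ a)))]
  simp only [Fintype.sum_bool, mul_add, sum_add_distrib, mul_assoc] at hl' ⊢
  linarith

theorem tensor_kron {Ψ : Matrix d d ℂ → Matrix e e ℂ} (hΨ : IsLinearMap ℂ Ψ)
    (ρ₁ : Matrix Bool Bool ℂ) (ρ₂ : Matrix d d ℂ) :
    qubitTensor (gadMap γ ν) Ψ (ρ₁ ⊗ₖ ρ₂) = gadMap γ ν ρ₁ ⊗ₖ Ψ ρ₂ := by
  have _ := hγ
  have _ := hν
  have hb : ∀ s t, block (ρ₁ ⊗ₖ ρ₂) s t = ρ₁ s t • ρ₂ := fun s t => by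
    ext i j; simp [block]
  ext ⟨s, i⟩ ⟨t, j⟩
  simp only [qubitTensor, of_apply, hb, hΨ.map_smul, kroneckerMap_apply]
  cases s <;> cases t <;> simp [coeff_gad, gadMap] <;> ring

theorem vn_tensor_kron {Ψ : Matrix d d ℂ → Matrix e e ℂ} (hΨ : IsChannel Ψ)
    {ρ₁ : Matrix Bool Bool ℂ} {ρ₂ : Matrix d d ℂ} (h₁ : IsDensity ρ₁) (h₂ : IsDensity ρ₂) :
    vnEntropy (qubitTensor (gadMap γ ν) Ψ (ρ₁ ⊗ₖ ρ₂)) =
      vnEntropy (gadMap γ ν ρ₁) + vnEntropy (Ψ ρ₂) := by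
  rw [tensor_kron hγ hν hΨ.1, vn_kron (gadMap_psd hγ hν h₁.1) (cp_pos hΨ.2.1 h₂.1), gadMap_trace,
    hΨ.2.2, h₁.2, h₂.2]
  simp

omit hγ hν in
theorem density_kron {ρ₁ : Matrix Bool Bool ℂ} {ρ₂ : Matrix d d ℂ} (h₁ : IsDensity ρ₁)
    (h₂ : IsDensity ρ₂) : IsDensity (ρ₁ ⊗ₖ ρ₂) :=
  ⟨h₁.1.kronecker h₂.1, by rw [trace_kronecker, h₁.2, h₂.2, mul_one]⟩

theorem main_prod {Ψ : Matrix d d ℂ → Matrix e e ℂ} (hΨ : IsChannel Ψ)
    {ι κ : Type*} [Fintype ι] [Fintype κ] {q₁ : ι → ℝ} {ρ₁ : ι → Matrix Bool Bool ℂ}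
    {q₂ : κ → ℝ} {ρ₂ : κ → Matrix d d ℂ} (h₁ : Ens q₁ ρ₁) (h₂ : Ens q₂ ρ₂) :
    Ens (fun a : ι × κ => q₁ a.1 * q₂ a.2) (fun a => ρ₁ a.1 ⊗ₖ ρ₂ a.2) ∧
      HI (qubitTensor (gadMap γ ν) Ψ) (fun a : ι × κ => q₁ a.1 * q₂ a.2)
        (fun a => ρ₁ a.1 ⊗ₖ ρ₂ a.2) = HI (gadMap γ ν) q₁ ρ₁ + HI Ψ q₂ ρ₂ := by
  refine ⟨⟨fun a => mul_nonneg (h₁.1 _) (h₂.1 _), ?_,
    fun a => density_kron (h₁.2.2 _) (h₂.2.2 _)⟩, ?_⟩
  · rw [Fintype.sum_prod_type, ← sum_mul_sum, h₁.2.1, h₂.2.1, mul_one]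
  have e1 : ∑ a : ι × κ, ((q₁ a.1 * q₂ a.2 : ℝ) : ℂ) •
      qubitTensor (gadMap γ ν) Ψ (ρ₁ a.1 ⊗ₖ ρ₂ a.2) =
      (∑ a, (q₁ a : ℂ) • gadMap γ ν (ρ₁ a)) ⊗ₖ (∑ a, (q₂ a : ℂ) • Ψ (ρ₂ a)) := by
    ext x y
    simp only [tensor_kron hγ hν hΨ.1, Matrix.sum_apply, Matrix.smul_apply, kroneckerMap_apply,
      smul_eq_mul, sum_mul_sum, Fintype.sum_prod_type, Complex.ofReal_mul]
    exact sum_congr rfl fun a _ => sum_congr rfl fun b _ => by ring
  have t1 : (∑ a, (q₁ a : ℂ) • gadMap γ ν (ρ₁ a)).trace = 1 := by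
    simp only [trace_sum, trace_smul, gadMap_trace, (h₁.2.2 _).2, smul_eq_mul, mul_one,
      ← Complex.ofReal_sum, h₁.2.1, Complex.ofReal_one]
  have t2 : (∑ a, (q₂ a : ℂ) • Ψ (ρ₂ a)).trace = 1 := by
    simp only [trace_sum, trace_smul, hΨ.2.2 _, (h₂.2.2 _).2, smul_eq_mul, mul_one,
      ← Complex.ofReal_sum, h₂.2.1, Complex.ofReal_one]
  rw [HI, HI, HI, e1,
    vn_kron (posSemidef_sum _ fun a _ => psd_smul (gadMap_psd hγ hν (h₁.2.2 a).1) (h₁.1 a))
      (posSemidef_sum _ fun a _ => psd_smul (cp_pos hΨ.2.1 (h₂.2.2 a).1) (h₂.1 a)), t1, t2]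
  simp only [vn_tensor_kron hγ hν hΨ (h₁.2.2 _) (h₂.2.2 _), Fintype.sum_prod_type, mul_add,
    sum_add_distrib, Complex.one_re, one_mul]
  have k1 : ∑ a, ∑ b, q₁ a * q₂ b * vnEntropy (gadMap γ ν (ρ₁ a)) =
      ∑ a, q₁ a * vnEntropy (gadMap γ ν (ρ₁ a)) := by
    refine sum_congr rfl fun a _ => ?_
    rw [← sum_mul, ← mul_sum, h₂.2.1, mul_one]
  have k2 : ∑ a, ∑ b, q₁ a * q₂ b * vnEntropy (Ψ (ρ₂ b)) = ∑ b, q₂ b * vnEntropy (Ψ (ρ₂ b)) := by
    rw [sum_comm]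
    refine sum_congr rfl fun b _ => ?_
    rw [← sum_mul, ← sum_mul, h₁.2.1, one_mul]
  rw [k1, k2]
  ring

theorem moe [Nonempty d] {Ψ : Matrix d d ℂ → Matrix e e ℂ} (hΨ : IsChannel Ψ)
    {ρ : Matrix (Bool × d) (Bool × d) ℂ} (hρ : IsDensity ρ) :
    ∃ (ρ₁ : Matrix Bool Bool ℂ) (ρ₂ : Matrix d d ℂ), IsDensity ρ₁ ∧ IsDensity ρ₂ ∧
      vnEntropy (gadMap γ ν ρ₁) + vnEntropy (Ψ ρ₂) ≤ vnEntropy (qubitTensor (gadMap γ ν) Ψ ρ) := by
  choose σ hσ hσe using fun s : Bool => exists_nrm (block_psd hρ.1 s)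
  have ht : ∀ s, 0 ≤ (block ρ s s).trace.re := fun s => trace_re_nonneg (block_psd hρ.1 s)
  have h1 := block_sum_one hρ
  have hp : (block ρ true true).trace.re ∈ Set.Icc (0 : ℝ) 1 :=
    ⟨ht true, by linarith [ht false]⟩
  have k := lower hγ hν hΨ hρ
  have k1 := vn_chan_smul hΨ (hσ true) (ht true)
  have k2 := vn_chan_smul hΨ (hσ false) (ht false)
  rw [← hσe true] at k1
  rw [← hσe false] at k2
  rw [k1, k2, ← vn_gad_st hγ hν hp true] at k
  have a := ht true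
  have b := ht false
  rcases le_total (vnEntropy (Ψ (σ true))) (vnEntropy (Ψ (σ false))) with h | h
  · refine ⟨_, σ true, st_density hp true, hσ true, le_trans ?_ k⟩
    have e := congrArg (· * vnEntropy (Ψ (σ true))) h1
    simp only [add_mul, one_mul] at e
    linarith [mul_le_mul_of_nonneg_left h b]
  · refine ⟨_, σ false, st_density hp true, hσ false, le_trans ?_ k⟩
    have e := congrArg (· * vnEntropy (Ψ (σ false))) h1
    simp only [add_mul, one_mul] at e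
    linarith [mul_le_mul_of_nonneg_left h a]

theorem HI_power_succ (n : ℕ) {ι : Type*} [Fintype ι] {q : ι → ℝ}
    {ρ : ι → Matrix (Fin (n + 1) → Bool) (Fin (n + 1) → Bool) ℂ} (h : Ens q ρ) :
    HI (qubitPower (n + 1) (gadMap γ ν)) q ρ =
      HI (qubitTensor (gadMap γ ν) (qubitPower n (gadMap γ ν))) q
        (fun a => (ρ a).submatrix (Fin.consEquiv fun _ => Bool) (Fin.consEquiv fun _ => Bool)) := by
  have hp : ∀ a, (qubitPower (n + 1) (gadMap γ ν) (ρ a)).PosSemidef := fun a =>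
    cp_pos (isChannel_power hγ hν (n + 1)).2.1 (h.2.2 a).1
  simp only [HI, ← qubitPower_succ, vn_submatrix (hp _)]
  rw [← vn_submatrix (posSemidef_sum _ fun a _ => psd_smul (hp a) (h.1 a))
    (Fin.consEquiv fun _ => Bool)]
  congr 2
  ext x y
  simp [Matrix.sum_apply]

omit hγ hν in
theorem vn_unique {u : Type*} [Fintype u] [DecidableEq u] [Unique u] {A : Matrix u u ℂ}
    (h : A.trace = 1) : vnEntropy A = 0 := by
  have : A = rdiag fun _ => 1 := by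
    ext i j
    rw [Subsingleton.elim i default, Subsingleton.elim j default]
    simpa [trace, rdiag] using h
  rw [this, vn_rdiag fun _ => zero_le_one]
  simp

theorem HI_power_zero {ι : Type*} [Fintype ι] {q : ι → ℝ}
    {ρ : ι → Matrix (Fin 0 → Bool) (Fin 0 → Bool) ℂ} (h : Ens q ρ) :
    HI (qubitPower 0 (gadMap γ ν)) q ρ = 0 := by
  have ht := (isChannel_power hγ hν 0).2.2
  rw [HI, vn_unique, sum_eq_zero, sub_zero]
  · intro a _
    rw [vn_unique (by rw [ht, (h.2.2 a).2]), mul_zero]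
  · simp only [trace_sum, trace_smul, ht _, (h.2.2 _).2, smul_eq_mul, mul_one,
      ← Complex.ofReal_sum, h.2.1, Complex.ofReal_one]

theorem power_upper {R : ℝ} (hR : ∀ p ∈ Set.Icc (0 : ℝ) 1, gadRate γ ν p ≤ R) (n : ℕ) :
    ∀ (ι : Type) [Fintype ι] (q : ι → ℝ) (ρ : ι → Matrix (Fin n → Bool) (Fin n → Bool) ℂ),
      Ens q ρ → HI (qubitPower n (gadMap γ ν)) q ρ ≤ n * R := by
  induction n with
  | zero =>
    intro ι _ q ρ h
    rw [HI_power_zero hγ hν h]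
    simp
  | succ n ih =>
    intro ι _ q ρ h
    rw [HI_power_succ hγ hν n h]
    obtain ⟨p, q₂, ρ₂, hp, h₂, hle⟩ := main_upper hγ hν (isChannel_power hγ hν n) (q := q)
      (ρ := fun a => (ρ a).submatrix (Fin.consEquiv fun _ => Bool) (Fin.consEquiv fun _ => Bool))
      ⟨h.1, h.2.1, fun a => ⟨(h.2.2 a).1.submatrix _, by
        rw [trace_submatrix_equiv, (h.2.2 a).2]⟩⟩
    have k1 := ih _ q₂ ρ₂ h₂
    have hP : ∑ a, q a * p a ∈ Set.Icc (0 : ℝ) 1 :=
      (convex_Icc 0 1).sum_mem (fun a _ => h.1 a) h.2.1 fun a _ => hp a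
    have k2 := hR _ hP
    obtain ⟨g0, g1⟩ := hγ
    obtain ⟨n0, n1⟩ := hν
    have k3 := jensen_E2 (A := γ * ν * (1 - ν)) (B := γ * (1 - γ)) (ν := ν) (q := q) (p := p)
      (mul_nonneg (mul_nonneg g0 n0) (by linarith)) (mul_nonneg g0 (by linarith)) h.1 h.2.1 (by
        intro a
        obtain ⟨p0, p1⟩ := hp a
        have : 0 ≤ (1 - γ) * ((1 - p a) * p a) :=
          mul_nonneg (by linarith) (mul_nonneg (by linarith) p0)
        nlinarith [sq_nonneg (1 - 2 * ((1 - γ) * p a + γ * ν))])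
    rw [gadRate_eq] at k2
    simp only [gg] at hle k2
    push_cast
    linarith

theorem power_lower {p : ℝ} (hp : p ∈ Set.Icc (0 : ℝ) 1) (n : ℕ) :
    ∃ (m : ℕ) (q : Fin m → ℝ) (ρ : Fin m → Matrix (Fin n → Bool) (Fin n → Bool) ℂ),
      IsEnsemble q ρ ∧ n * gadRate γ ν p ≤ holevoInfo (qubitPower n (gadMap γ ν)) q ρ := by
  induction n with
  | zero =>
    have h : Ens (fun _ : Fin 1 => (1 : ℝ))
        (fun _ => (1 : Matrix (Fin 0 → Bool) (Fin 0 → Bool) ℂ)) :=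
      ⟨fun _ => zero_le_one, by simp, fun _ => ⟨PosSemidef.one, by simp⟩⟩
    refine ⟨1, _, _, h, ?_⟩
    change _ ≤ HI _ _ _
    rw [HI_power_zero hγ hν h]
    simp
  | succ n ih =>
    obtain ⟨m, q, ρ, h, hle⟩ := ih
    obtain ⟨h₁, e₁⟩ := ens_one hγ hν (ι := Unit) (q := fun _ => 1) (p := fun _ => p)
      (fun _ => zero_le_one) (by simp) fun _ => hp
    obtain ⟨h₂, e₂⟩ := main_prod hγ hν (isChannel_power hγ hν n) h₁ (q₂ := q) (ρ₂ := ρ) h
    have h₃ : Ens (fun a : (Unit × Bool) × Fin m => 1 / 2 * q a.2)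
        (fun a => (st p a.1.2 ⊗ₖ ρ a.2).submatrix (Fin.consEquiv fun _ : Fin (n + 1) => Bool).symm
          (Fin.consEquiv fun _ : Fin (n + 1) => Bool).symm) :=
      ⟨h₂.1, h₂.2.1, fun a => ⟨(h₂.2.2 a).1.submatrix _, by
        rw [trace_submatrix_equiv, (h₂.2.2 a).2]⟩⟩
    obtain ⟨m', q', ρ', h', e'⟩ := h₃.fin (qubitPower (n + 1) (gadMap γ ν))
    refine ⟨m', q', ρ', h', ?_⟩
    rw [e', HI_power_succ hγ hν n h₃]
    simp only [submatrix_submatrix, Equiv.symm_comp_self, submatrix_id_id]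
    rw [e₂, e₁]
    change _ ≤ HI _ _ _ at hle
    simp only [univ_unique, sum_singleton, one_mul, ← gadRate_eq]
    push_cast
    linarith

end

end Crest.Agent.R341
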