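import Crest.Agent.R341.Det

/-! Row 341: the three-path entropy inequality. -/

set_option autoImplicit false
set_option linter.unusedSectionVars false

namespace Crest.Agent.R341

open Real Finset Matrix Crest.Quantum
open scoped ComplexOrder

variable {n : Type*} [Fintype n] [DecidableEq n]

theorem re_dot_comm (u v : n → ℂ) : (star u ⬝ᵥ v).re = (star v ⬝ᵥ u).re := by
  rw [star_dotProduct, Complex.star_def, Complex.conj_re]

theorem dot_mulVec_adj (Z : Matrix n n ℂ) (u v : n → ℂ) :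
    star u ⬝ᵥ Z *ᵥ v = star (Zᴴ *ᵥ u) ⬝ᵥ v := by
  rw [star_mulVec, conjTranspose_conjTranspose, dotProduct_mulVec]

theorem trace_blocks (A B C D : Matrix n n ℂ) :
    (fromBlocks A B C D).trace = A.trace + D.trace := by
  simp [trace, Fintype.sum_sum_type]

theorem det_three {x y : n → ℝ} (hx : ∀ i, 0 ≤ x i) {Z Y L : Matrix n n ℂ}
    (hM : (fromBlocks (rdiag x) Z Zᴴ Y).PosSemidef) (hL : L.PosSemidef)
    (hy : ∀ i, x i ≠ 0 → ((Z * Zᴴ) i i).re = x i * y i) :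
    (1 + Y).det.re * ((1 + L).det.re * ∏ i, (1 + x i / ((1 + y i) * (1 + (L i i).re)))) ≤
      (1 + fromBlocks (rdiag x + L) Z Zᴴ Y).det.re := by
  have hY := psd_block₂₂ hM
  have hX := rdiag_psd hx
  have hY1 : (1 + Y).PosDef := PosDef.one.add_posSemidef hY
  have hL1 : (1 + L).PosDef := PosDef.one.add_posSemidef hL
  have hu : IsUnit (1 + Y).det := (isUnit_iff_isUnit_det _).1 hY1.isUnit
  let _i : Invertible (1 + Y) := invertibleOfIsUnitDet _ hu
  obtain ⟨D, hD⟩ : ∃ D, D = rdiag x - Z * (1 + Y)⁻¹ * Zᴴ := ⟨_, rfl⟩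
  have e1 : (1 + fromBlocks (rdiag x + L) Z Zᴴ Y).det = (1 + Y).det * (1 + L + D).det := by
    rw [← fromBlocks_one, fromBlocks_add, det_fromBlocks₂₂, invOf_eq_nonsing_inv, zero_add,
      zero_add, hD]
    congr 2
    abel
  have key : ∀ ξ ζ : n → ℂ, 2 * (star ξ ⬝ᵥ rdiag x *ᵥ ζ).re ≤
      (star ξ ⬝ᵥ (rdiag x + Z * Zᴴ) *ᵥ ξ).re + (star ζ ⬝ᵥ D *ᵥ ζ).re := by
    intro ξ ζ
    obtain ⟨ω, hω⟩ : ∃ ω, ω = (1 + Y)⁻¹ *ᵥ (Zᴴ *ᵥ ζ) := ⟨_, rfl⟩
    have hb : Zᴴ *ᵥ ζ = ω + Y *ᵥ ω := by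
      have : (1 + Y) *ᵥ ω = Zᴴ *ᵥ ζ := by
        rw [hω, mulVec_mulVec, mul_nonsing_inv _ hu, one_mulVec]
      rw [← this, add_mulVec, one_mulVec]
    have h1 := hM.re_dotProduct_nonneg (Sum.elim (ζ - ξ) (-ω))
    have h2 := PosSemidef.one.re_dotProduct_nonneg (Zᴴ *ᵥ ξ - ω)
    rw [fromBlocks_mulVec, Function.star_sumElim, sumElim_dotProduct_sumElim] at h1
    simp only [Sum.elim_comp_inl, Sum.elim_comp_inr, star_sub, star_neg, mulVec_sub, mulVec_neg,
      dotProduct_add, dotProduct_sub, sub_dotProduct, neg_dotProduct, dotProduct_neg,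
      RCLike.re_to_complex, Complex.add_re, Complex.sub_re, Complex.neg_re, one_mulVec] at h1 h2
    have e2 : (star ζ ⬝ᵥ rdiag x *ᵥ ξ).re = (star ξ ⬝ᵥ rdiag x *ᵥ ζ).re := by
      rw [herm_dot hX.1, Complex.star_def, Complex.conj_re]
    have e3 : (star ζ ⬝ᵥ Z *ᵥ ω).re = (star ω ⬝ᵥ ω).re + (star ω ⬝ᵥ Y *ᵥ ω).re := by
      rw [dot_mulVec_adj, re_dot_comm, hb, dotProduct_add, Complex.add_re]
    have e4 : (star ω ⬝ᵥ Zᴴ *ᵥ ζ).re = (star ω ⬝ᵥ ω).re + (star ω ⬝ᵥ Y *ᵥ ω).re := by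
      rw [hb, dotProduct_add, Complex.add_re]
    have e5 : (star ξ ⬝ᵥ Z *ᵥ ω).re = (star ω ⬝ᵥ Zᴴ *ᵥ ξ).re := by
      rw [dot_mulVec_adj, re_dot_comm]
    have e6 : (star (Zᴴ *ᵥ ξ) ⬝ᵥ ω).re = (star ω ⬝ᵥ Zᴴ *ᵥ ξ).re := re_dot_comm _ _
    have e7 : (star ξ ⬝ᵥ (rdiag x + Z * Zᴴ) *ᵥ ξ).re =
        (star ξ ⬝ᵥ rdiag x *ᵥ ξ).re + (star (Zᴴ *ᵥ ξ) ⬝ᵥ Zᴴ *ᵥ ξ).re := by
      rw [add_mulVec, dotProduct_add, Complex.add_re, ← mulVec_mulVec, dot_mulVec_adj Z]
    have e8 : (star ζ ⬝ᵥ D *ᵥ ζ).re =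
        (star ζ ⬝ᵥ rdiag x *ᵥ ζ).re - (star ζ ⬝ᵥ Z *ᵥ ω).re := by
      rw [hD, sub_mulVec, dotProduct_sub, Complex.sub_re, ← mulVec_mulVec, ← mulVec_mulVec, ← hω]
    linarith
  have hDh : D.IsHermitian := by
    rw [hD]
    exact hX.1.sub (hY1.inv.posSemidef.mul_mul_conjTranspose_same Z).1
  have hDp : D.PosSemidef := PosSemidef.of_dotProduct_mulVec_nonneg hDh fun ζ => by
    have h1 := key 0 ζ
    simp only [star_zero, zero_dotProduct, Complex.zero_re, mul_zero, zero_add] at h1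
    refine Complex.nonneg_iff.2 ⟨h1, ?_⟩
    have h2 := congrArg Complex.im (herm_dot hDh ζ ζ)
    rw [Complex.star_def, Complex.conj_im] at h2
    linarith
  have h1 := det_add_ge hL1 (rdiag x + Z * Zᴴ) x univ D hDp (by simp) fun ξ ζ _ => by
    refine le_trans (le_of_eq ?_) (key ξ ζ)
    congr 2
    simp only [dotProduct, rdiag, mulVec_diagonal, Pi.star_apply, mul_assoc]
  have hdet := Complex.pos_iff.1 hY1.det_pos
  rw [e1, Complex.mul_re, ← hdet.2, zero_mul, sub_zero]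
  refine mul_le_mul_of_nonneg_left (le_trans (le_of_eq ?_) h1) hdet.1.le
  congr 1
  refine prod_congr rfl fun i _ => ?_
  congr 1
  rcases eq_or_ne (x i) 0 with h | h
  · simp [h]
  · simp only [Matrix.add_apply, one_apply_eq, Complex.add_re, Complex.one_re, hy i h, rdiag,
      diagonal_apply_eq, Complex.ofReal_re]
    rw [show x i + x i * y i = x i * (1 + y i) by ring, sq, mul_left_comm,
      mul_div_mul_left _ _ h, mul_comm]

theorem sum_y_le {x : n → ℝ} {Z Y : Matrix n n ℂ}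
    (hM : (fromBlocks (rdiag x) Z Zᴴ Y).PosSemidef) :
    ∑ i, ((Z * Zᴴ) i i).re / x i ≤ Y.trace.re := by
  let W : Matrix n n ℂ := rdiag fun i => (x i)⁻¹
  have hW : Wᴴ = W := by
    simp only [W, rdiag, diagonal_conjTranspose]
    congr 1
    funext i
    simp
  have hWXW : W * rdiag x * W = W := by
    simp only [W, rdiag, diagonal_mul_diagonal, ← Complex.ofReal_mul]
    congr 1
    funext i
    congr 1
    rcases eq_or_ne (x i) 0 with h | h
    · simp [h]
    · field_simp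
  have h1 := hM.conjTranspose_mul_mul_same (fromRows (-(W * Z)) (1 : Matrix n n ℂ))
  have e : (fromRows (-(W * Z)) (1 : Matrix n n ℂ))ᴴ * fromBlocks (rdiag x) Z Zᴴ Y *
      fromRows (-(W * Z)) (1 : Matrix n n ℂ) = Y - Zᴴ * W * Z := by
    rw [conjTranspose_fromRows_eq_fromCols_conjTranspose, fromCols_mul_fromBlocks,
      fromCols_mul_fromRows, conjTranspose_neg, conjTranspose_mul, hW, conjTranspose_one]
    have : Zᴴ * W * rdiag x * (W * Z) = Zᴴ * W * Z := by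
      calc _ = Zᴴ * (W * rdiag x * W) * Z := by simp only [Matrix.mul_assoc]
        _ = _ := by rw [hWXW]
    simp only [Matrix.neg_mul, Matrix.mul_neg, Matrix.add_mul, Matrix.one_mul, Matrix.mul_one,
      neg_add, neg_neg, this, ← Matrix.mul_assoc Zᴴ W Z]
    abel
  rw [e] at h1
  have h2 := trace_re_nonneg h1
  rw [trace_sub, Complex.sub_re, trace_mul_cycle, trace_mul_comm] at h2
  refine le_trans (le_of_eq ?_) (sub_nonneg.1 h2)
  rw [trace, Complex.re_sum]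
  refine sum_congr rfl fun i _ => ?_
  simp only [W, rdiag, diag_apply, diagonal_mul, Complex.re_ofReal_mul]
  rw [div_eq_inv_mul]

theorem det_one_add_pos {A : Matrix n n ℂ} (hA : A.PosSemidef) : 0 < (1 + A).det.re :=
  (Complex.pos_iff.1 (PosDef.one.add_posSemidef hA).det_pos).1

theorem psd_add_block {X Z Y L : Matrix n n ℂ} (hM : (fromBlocks X Z Zᴴ Y).PosSemidef)
    (hL : L.PosSemidef) : (fromBlocks (X + L) Z Zᴴ Y).PosSemidef := by
  have h1 := hL.mul_mul_conjTranspose_same (fromRows (1 : Matrix n n ℂ) (0 : Matrix n n ℂ))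
  rw [conjTranspose_fromRows_eq_fromCols_conjTranspose, fromRows_mul, fromRows_mul_fromCols] at h1
  have h2 := hM.add h1
  rw [fromBlocks_add] at h2
  simpa using h2

theorem three_path_diag {x : n → ℝ} (hx : ∀ i, 0 ≤ x i) {Z Y L : Matrix n n ℂ}
    (hM : (fromBlocks (rdiag x) Z Zᴴ Y).PosSemidef) (hL : L.PosSemidef) :
    phi (∑ i, x i) Y.trace.re L.trace.re ≤ vnEntropy (fromBlocks (rdiag x + L) Z Zᴴ Y) -
      vnEntropy Y - vnEntropy L - vnEntropy (rdiag x) := by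
  have hY := psd_block₂₂ hM
  let y : n → ℝ := fun i => ((Z * Zᴴ) i i).re / x i
  have hy : ∀ i, 0 ≤ y i := fun i =>
    div_nonneg (diag_re_nonneg (posSemidef_self_mul_conjTranspose Z) i) (hx i)
  have hl : ∀ i, 0 ≤ (L i i).re := diag_re_nonneg hL
  refine (phi_sum hx hy hl (sum_y_le hM) (le_of_eq (by rw [trace, Complex.re_sum]; rfl))).trans ?_
  refine (Prim.sum univ fun i _ => prim_phi (hx i) (hy i) (hl i)).le
    ((((prim_ldet (psd_add_block hM hL)).sub (prim_ldet hY)).sub (prim_ldet hL)).sub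
      (prim_ldet (rdiag_psd hx))) ?_ fun s hs => ?_
  · rw [trace_blocks, trace_add]
    simp
  have hs' : 0 ≤ s⁻¹ := by positivity
  have e1 : ((s⁻¹ : ℝ) : ℂ) • rdiag x = rdiag fun i => s⁻¹ * x i := by
    ext i j
    by_cases h : i = j
    · subst h; simp [rdiag]
    · simp [rdiag, h]
  have e2 : ((s⁻¹ : ℝ) : ℂ) • Zᴴ = (((s⁻¹ : ℝ) : ℂ) • Z)ᴴ := by
    rw [conjTranspose_smul, Complex.star_def, Complex.conj_ofReal]
  have hM' := psd_smul hM hs'
  rw [fromBlocks_smul, e1, e2] at hM'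
  have h1 := det_three (y := fun i => s⁻¹ * y i) (fun i => mul_nonneg hs' (hx i)) hM'
    (psd_smul hL hs') (by
      intro i hi
      have hi' : x i ≠ 0 := right_ne_zero_of_mul hi
      rw [← e2, Matrix.smul_mul, Matrix.mul_smul]
      simp only [Matrix.smul_apply, smul_eq_mul, Complex.re_ofReal_mul, y]
      field_simp)
  have p1 := det_one_add_pos (psd_smul hY hs')
  have p2 := det_one_add_pos (psd_smul hL hs')
  have p3 : ∀ i, 1 + s⁻¹ * x i / ((1 + s⁻¹ * y i) * (1 + ((((s⁻¹ : ℝ) : ℂ) • L) i i).re)) =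
      1 + s * x i / ((s + y i) * (s + (L i i).re)) := by
    intro i
    have := hy i
    have := hl i
    simp only [Matrix.smul_apply, smul_eq_mul, Complex.re_ofReal_mul]
    field_simp
  have p4 : ∀ i, 0 < 1 + s * x i / ((s + y i) * (s + (L i i).re)) := by
    intro i
    have := hx i
    have := hy i
    have := hl i
    positivity
  simp only [p3] at h1
  have h2 := log_le_log (mul_pos p1 (mul_pos p2 (prod_pos fun i _ => p4 i))) h1
  rw [log_mul p1.ne' (mul_pos p2 (prod_pos fun i _ => p4 i)).ne',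
    log_mul p2.ne' (prod_pos fun i _ => p4 i).ne', log_prod fun i _ => (p4 i).ne'] at h2
  rw [sum_sub_distrib, ldet_rdiag hx hs]
  unfold ldet
  rw [fromBlocks_smul, smul_add, e1, e2]
  linarith

/-- The three-path inequality. -/
theorem three_path {X Z Y L : Matrix n n ℂ} (hM : (fromBlocks X Z Zᴴ Y).PosSemidef)
    (hL : L.PosSemidef) :
    phi X.trace.re Y.trace.re L.trace.re ≤ vnEntropy (fromBlocks (X + L) Z Zᴴ Y) -
      vnEntropy Y - vnEntropy L - vnEntropy X := by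
  obtain ⟨U, x, h1, h2, hx, e, hS⟩ := exists_spec (psd_block₁₁ hM)
  have hXd : Uᴴ * X * U = rdiag x := by rw [e, conj_conj h1]
  have hc : ∀ A : Matrix n n ℂ, (fromBlocks U 0 0 1)ᴴ * fromBlocks A Z Zᴴ Y * fromBlocks U 0 0 1 =
      fromBlocks (Uᴴ * A * U) (Uᴴ * Z) (Uᴴ * Z)ᴴ Y := by
    intro A
    simp [fromBlocks_conjTranspose, fromBlocks_multiply]
  have hM' := hM.conjTranspose_mul_mul_same (fromBlocks U 0 0 (1 : Matrix n n ℂ))
  rw [hc, hXd] at hM'
  have hL' := hL.conjTranspose_mul_mul_same U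
  have h3 := three_path_diag hx hM' hL'
  have k1 : ∀ {A V : Matrix n n ℂ}, A.PosSemidef → Vᴴ * V = 1 → V * Vᴴ = 1 →
      vnEntropy (Vᴴ * A * V) = vnEntropy A := by
    intro A V hA a1 a2
    have := vn_conj (U := Vᴴ) hA (by rwa [conjTranspose_conjTranspose])
      (by rwa [conjTranspose_conjTranspose])
    rwa [conjTranspose_conjTranspose] at this
  have k2 : vnEntropy (fromBlocks (rdiag x + Uᴴ * L * U) (Uᴴ * Z) (Uᴴ * Z)ᴴ Y) =
      vnEntropy (fromBlocks (X + L) Z Zᴴ Y) := by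
    rw [← hXd, ← Matrix.add_mul, ← Matrix.mul_add, ← hc]
    have := vn_conj (U := (fromBlocks U 0 0 (1 : Matrix n n ℂ))ᴴ) (psd_add_block hM hL)
      (by simp [fromBlocks_conjTranspose, fromBlocks_multiply, h2])
      (by simp [fromBlocks_conjTranspose, fromBlocks_multiply, h1])
    rwa [conjTranspose_conjTranspose] at this
  have k3 : (Uᴴ * L * U).trace = L.trace := by rw [trace_mul_cycle, h2, Matrix.one_mul]
  have k4 : ∑ i, x i = X.trace.re := by rw [e, trace_conj h1, trace_rdiag]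
  rw [k2, k1 hL h1 h2, k3, k4, vn_rdiag hx, ← hS] at h3
  exact h3

end Crest.Agent.R341
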