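import Mathlib

/-! Row 341: entropies as integrals of logarithms of determinants (scalar part). -/

set_option autoImplicit false

namespace Crest.Agent.R341

open Real Filter Topology Finset

/-- `f` is a "log-determinant function" with trace `τ` and entropy `H`. -/
def Prim (f : ℝ → ℝ) (τ H : ℝ) : Prop :=
  ∃ G : ℝ → ℝ, ContinuousOn G (Set.Ici 0) ∧ (∀ s, 0 < s → HasDerivAt G (f s) s) ∧ G 0 = -H ∧
    Tendsto (fun s => G s - τ * (1 + log s)) atTop (𝓝 0)

theorem Prim.congr {f f' : ℝ → ℝ} {τ τ' H H' : ℝ} (h : Prim f τ H) (e : ∀ s, 0 < s → f' s = f s)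
    (eτ : τ' = τ) (eH : H' = H) : Prim f' τ' H' := by
  obtain ⟨G, h1, h2, h3, h4⟩ := h
  subst eτ eH
  exact ⟨G, h1, fun s hs => (e s hs) ▸ h2 s hs, h3, h4⟩

theorem Prim.add {f f' : ℝ → ℝ} {τ τ' H H' : ℝ} (h : Prim f τ H) (h' : Prim f' τ' H') :
    Prim (fun s => f s + f' s) (τ + τ') (H + H') := by
  obtain ⟨G, h1, h2, h3, h4⟩ := h
  obtain ⟨G', h1', h2', h3', h4'⟩ := h'
  refine ⟨fun s => G s + G' s, h1.add h1', fun s hs => (h2 s hs).add (h2' s hs), ?_, ?_⟩
  · simp only [h3, h3']; ring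
  · have := h4.add h4'
    rw [add_zero] at this
    exact this.congr fun s => by ring

theorem Prim.const_mul {f : ℝ → ℝ} {τ H : ℝ} (c : ℝ) (h : Prim f τ H) :
    Prim (fun s => c * f s) (c * τ) (c * H) := by
  obtain ⟨G, h1, h2, h3, h4⟩ := h
  refine ⟨fun s => c * G s, continuousOn_const.mul h1, fun s hs => (h2 s hs).const_mul c, ?_, ?_⟩
  · simp only [h3]; ring
  · have := h4.const_mul c
    rw [mul_zero] at this
    exact this.congr fun s => by ring

theorem Prim.sub {f f' : ℝ → ℝ} {τ τ' H H' : ℝ} (h : Prim f τ H) (h' : Prim f' τ' H') :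
    Prim (fun s => f s - f' s) (τ - τ') (H - H') :=
  (h.add (h'.const_mul (-1))).congr (fun s _ => by ring) (by ring) (by ring)

theorem Prim.zero : Prim (fun _ => 0) 0 0 :=
  ⟨fun _ => 0, continuousOn_const, fun s _ => hasDerivAt_const s 0, by simp, by simp⟩

theorem Prim.sum {ι : Type*} (t : Finset ι) {f : ι → ℝ → ℝ} {τ H : ι → ℝ}
    (h : ∀ i ∈ t, Prim (f i) (τ i) (H i)) :
    Prim (fun s => ∑ i ∈ t, f i s) (∑ i ∈ t, τ i) (∑ i ∈ t, H i) := by
  classical
  induction t using Finset.induction_on with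
  | empty => simpa using Prim.zero
  | insert a t ha ih =>
    simp only [Finset.sum_insert ha]
    exact (h a (Finset.mem_insert_self _ _)).add
      (ih fun i hi => h i (Finset.mem_insert_of_mem hi))

theorem Prim.nonneg {f : ℝ → ℝ} {H : ℝ} (h : Prim f 0 H) (h0 : ∀ s, 0 < s → 0 ≤ f s) : 0 ≤ H := by
  obtain ⟨G, h1, h2, h3, h4⟩ := h
  have hm : MonotoneOn G (Set.Ici 0) := by
    refine monotoneOn_of_deriv_nonneg (convex_Ici 0) h1 ?_ ?_
    · rw [interior_Ici]
      exact fun s hs => (h2 s hs).differentiableAt.differentiableWithinAt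
    · rw [interior_Ici]
      intro s hs
      rw [(h2 s hs).deriv]
      exact h0 s hs
  have h5 : G 0 ≤ 0 := by
    refine ge_of_tendsto h4 ?_
    filter_upwards [eventually_ge_atTop (0 : ℝ)] with s hs
    have := hm (Set.mem_Ici.2 le_rfl) (Set.mem_Ici.2 hs) hs
    linarith
  linarith

theorem Prim.le {f f' : ℝ → ℝ} {τ τ' H H' : ℝ} (h : Prim f τ H) (h' : Prim f' τ' H')
    (eτ : τ = τ') (h0 : ∀ s, 0 < s → f s ≤ f' s) : H ≤ H' := by
  have := ((h'.sub h).congr (fun _ _ => rfl) (by rw [eτ, sub_self]) rfl).nonneg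
    fun s hs => sub_nonneg.2 (h0 s hs)
  linarith

theorem Prim.unique {f f' : ℝ → ℝ} {τ τ' H H' : ℝ} (h : Prim f τ H) (h' : Prim f' τ' H')
    (eτ : τ = τ') (h0 : ∀ s, 0 < s → f s = f' s) : H = H' :=
  le_antisymm (h.le h' eτ fun s hs => (h0 s hs).le) (h'.le h eτ.symm fun s hs => (h0 s hs).ge)

theorem Prim.base {a : ℝ} (ha : 0 ≤ a) : Prim (fun s => log (1 + a / s)) a (negMulLog a) := by
  refine ⟨fun s => (s + a) * log (s + a) - s * log s, ?_, fun s hs => ?_, ?_, ?_⟩
  · exact ((continuous_mul_log.comp (continuous_id.add continuous_const)).sub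
      continuous_mul_log).continuousOn
  · have hsa : s + a ≠ 0 := by positivity
    have h1 := (hasDerivAt_mul_log hsa).comp_add_const s a
    have h2 := h1.sub (hasDerivAt_mul_log hs.ne')
    refine h2.congr_deriv ?_
    beta_reduce
    rw [show 1 + a / s = (s + a) / s by field_simp, log_div hsa hs.ne']
    ring
  · simp [negMulLog]
  · have h1 := tendsto_mul_log_one_add_div_atTop a
    have h2 : Tendsto (fun s : ℝ => a * log (1 + a / s)) atTop (𝓝 0) := by
      have h3 : Tendsto (fun s : ℝ => 1 + a / s) atTop (𝓝 (1 + 0)) :=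
        (tendsto_const_nhds.div_atTop tendsto_id).const_add 1
      rw [add_zero] at h3
      have := (h3.log one_ne_zero).const_mul a
      simpa using this
    have h3 := (h1.add h2).sub_const a
    rw [add_zero, sub_self] at h3
    refine h3.congr' ?_
    filter_upwards [eventually_gt_atTop (0 : ℝ)] with s hs
    have hsa : s + a ≠ 0 := by positivity
    rw [show 1 + a / s = (s + a) / s by field_simp, log_div hsa hs.ne']
    ring

theorem Prim.scale {f : ℝ → ℝ} {H t : ℝ} (h : Prim f 0 H) (ht : 0 < t) :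
    Prim (fun s => t * f (t * s)) 0 H := by
  obtain ⟨G, h1, h2, h3, h4⟩ := h
  refine ⟨fun s => G (t * s), ?_, fun s hs => ?_, by simpa using h3, ?_⟩
  · exact h1.comp (continuous_const.mul continuous_id).continuousOn
      fun s hs => mul_nonneg ht.le hs
  · have := (h2 (t * s) (mul_pos ht hs)).comp s ((hasDerivAt_id s).const_mul t)
    refine this.congr_deriv ?_
    ring
  · simp only [zero_mul, sub_zero] at h4 ⊢
    exact h4.comp (tendsto_id.const_mul_atTop ht)

/-- Entropy of a `2 × 2` positive matrix with trace `τ` and determinant `D`. -/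
noncomputable def E2 (τ D : ℝ) : ℝ :=
  negMulLog ((τ + √(τ ^ 2 - 4 * D)) / 2) + negMulLog ((τ - √(τ ^ 2 - 4 * D)) / 2)

theorem prim_E2 {τ D : ℝ} (hτ : 0 ≤ τ) (hD : 0 ≤ D) (h : 4 * D ≤ τ ^ 2) :
    Prim (fun s => log (1 + τ / s + D / s ^ 2)) τ (E2 τ D) := by
  have h0 : 0 ≤ τ ^ 2 - 4 * D := by linarith
  have h1 := sqrt_nonneg (τ ^ 2 - 4 * D)
  have h2 : √(τ ^ 2 - 4 * D) ≤ τ := sqrt_le_iff.2 ⟨hτ, by linarith⟩
  have h3 := sq_sqrt h0
  have ha : 0 ≤ (τ + √(τ ^ 2 - 4 * D)) / 2 := by linarith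
  have hb : 0 ≤ (τ - √(τ ^ 2 - 4 * D)) / 2 := by linarith
  refine ((Prim.base ha).add (Prim.base hb)).congr (fun s hs => ?_) (by ring) rfl
  rw [← log_mul (by positivity) (by positivity)]
  congr 1
  generalize √(τ ^ 2 - 4 * D) = r at h3
  field_simp
  linear_combination h3

theorem E2_smul {t : ℝ} (ht : 0 ≤ t) (τ D : ℝ) :
    E2 (t * τ) (t ^ 2 * D) - negMulLog (t * τ) = t * (E2 τ D - negMulLog τ) := by
  unfold E2
  have : √((t * τ) ^ 2 - 4 * (t ^ 2 * D)) = t * √(τ ^ 2 - 4 * D) := by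
    rw [show (t * τ) ^ 2 - 4 * (t ^ 2 * D) = t ^ 2 * (τ ^ 2 - 4 * D) by ring,
      sqrt_mul (sq_nonneg t), sqrt_sq ht]
  rw [this, show (t * τ + t * √(τ ^ 2 - 4 * D)) / 2 = t * ((τ + √(τ ^ 2 - 4 * D)) / 2) by ring,
    show (t * τ - t * √(τ ^ 2 - 4 * D)) / 2 = t * ((τ - √(τ ^ 2 - 4 * D)) / 2) by ring]
  simp only [negMulLog_mul]
  ring

theorem negMulLog_le_E2 {τ D : ℝ} (hτ : 0 ≤ τ) (hD : 0 ≤ D) (h : 4 * D ≤ τ ^ 2) :
    negMulLog τ ≤ E2 τ D :=
  (Prim.base hτ).le (prim_E2 hτ hD h) rfl fun s hs =>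
    log_le_log (by positivity) (le_add_of_nonneg_right (by positivity))

theorem E2_zero {τ : ℝ} (hτ : 0 ≤ τ) : E2 τ 0 = negMulLog τ := by
  simp [E2, sqrt_sq hτ]

theorem E2_one (v : ℝ) : E2 1 v = binEntropy ((1 + √(1 - 4 * v)) / 2) := by
  rw [binEntropy_eq_negMulLog_add_negMulLog_one_sub, E2, one_pow]
  congr 2
  ring

/-- the scalar three-path function -/
noncomputable def phi (x y l : ℝ) : ℝ :=
  E2 (x + y + l) (y * l) - negMulLog x - negMulLog y - negMulLog l

theorem prim_phi {x y l : ℝ} (hx : 0 ≤ x) (hy : 0 ≤ y) (hl : 0 ≤ l) :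
    Prim (fun s => log (1 + s * x / ((s + y) * (s + l))) - log (1 + x / s)) 0 (phi x y l) := by
  have h4 : 4 * (y * l) ≤ (x + y + l) ^ 2 := by nlinarith [sq_nonneg (y - l)]
  refine ((((prim_E2 (by positivity) (by positivity) h4).sub (Prim.base hx)).sub
    (Prim.base hy)).sub (Prim.base hl)).congr (fun s hs => ?_) (by ring) rfl
  have e : 1 + (x + y + l) / s + y * l / s ^ 2 =
      (1 + s * x / ((s + y) * (s + l))) * ((1 + y / s) * (1 + l / s)) := by
    field_simp
    ring
  rw [e, log_mul (by positivity) (by positivity), log_mul (by positivity) (by positivity)]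
  ring

theorem phi_zero {y l : ℝ} (hy : 0 ≤ y) (hl : 0 ≤ l) : phi 0 y l = 0 :=
  (prim_phi le_rfl hy hl).unique Prim.zero rfl fun s _ => by simp

/-- tangent inequality for `(y, l) ↦ log (1 + c / (y l))` -/
theorem tangent_log {c a b a₀ b₀ : ℝ} (hc : 0 ≤ c) (ha : 0 < a) (hb : 0 < b) (ha₀ : 0 < a₀)
    (hb₀ : 0 < b₀) :
    log (1 + c / (a₀ * b₀)) - c / (a₀ * b₀ + c) * ((a - a₀) / a₀ + (b - b₀) / b₀) ≤
      log (1 + c / (a * b)) := by
  set σ := c / (a₀ * b₀ + c) with hσ
  have hσ0 : 0 ≤ σ := by positivity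
  have hσ1 : σ ≤ 1 := by rw [hσ, div_le_one (by positivity)]; nlinarith [mul_pos ha₀ hb₀]
  set u := log (a₀ * b₀ / (a * b)) with hu
  have h1 : -((a - a₀) / a₀ + (b - b₀) / b₀) ≤ u := by
    have e : u = -(log (a / a₀) + log (b / b₀)) := by
      rw [hu, ← log_mul (by positivity) (by positivity), ← log_inv]
      congr 1
      field_simp
    have k1 := log_le_sub_one_of_pos (div_pos ha ha₀)
    have k2 := log_le_sub_one_of_pos (div_pos hb hb₀)
    have e1 : (a - a₀) / a₀ = a / a₀ - 1 := by field_simp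
    have e2 : (b - b₀) / b₀ = b / b₀ - 1 := by field_simp
    rw [e, e1, e2]
    linarith
  have h2 : exp (σ * u) ≤ (1 - σ) + σ * exp u := by
    have := convexOn_exp.2 (Set.mem_univ 0) (Set.mem_univ u) (sub_nonneg.2 hσ1) hσ0 (by ring)
    simpa using this
  have h3 : (1 - σ) + σ * exp u = (1 + c / (a * b)) / (1 + c / (a₀ * b₀)) := by
    rw [hu, exp_log (by positivity), hσ]
    field_simp
    ring
  have h4 : σ * u ≤ log (1 + c / (a * b)) - log (1 + c / (a₀ * b₀)) := by
    rw [← log_div (by positivity) (by positivity), ← h3, le_log_iff_exp_le]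
    · exact h2
    · exact (exp_pos _).trans_le h2
  nlinarith [mul_le_mul_of_nonneg_left h1 hσ0]

theorem phi_sum {ι : Type*} [Fintype ι] {x y l : ι → ℝ} (hx : ∀ i, 0 ≤ x i) (hy : ∀ i, 0 ≤ y i)
    (hl : ∀ i, 0 ≤ l i) {Y L : ℝ} (hY : ∑ i, y i ≤ Y) (hL : ∑ i, l i ≤ L) :
    phi (∑ i, x i) Y L ≤ ∑ i, phi (x i) (y i) (l i) := by
  classical
  have hY0 : 0 ≤ Y := (sum_nonneg fun i _ => hy i).trans hY
  have hL0 : 0 ≤ L := (sum_nonneg fun i _ => hl i).trans hL
  set X := ∑ i, x i with hX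
  have hX0 : 0 ≤ X := sum_nonneg fun i _ => hx i
  rcases hX0.eq_or_lt with h0 | h0
  · have : ∀ i, x i = 0 := fun i =>
      (sum_eq_zero_iff_of_nonneg fun i _ => hx i).1 h0.symm i (mem_univ i)
    rw [← h0, phi_zero hY0 hL0]
    exact sum_nonneg fun i _ => by rw [this i, phi_zero (hy i) (hl i)]
  have hP : ∀ i, Prim (fun s => x i / X * (log (1 + s * X / ((s + y i / (x i / X)) *
      (s + l i / (x i / X)))) - log (1 + X / s))) 0 (phi (x i) (y i) (l i)) := by
    intro i
    rcases (hx i).eq_or_lt with h1 | h1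
    · rw [← h1, phi_zero (hy i) (hl i)]
      exact Prim.zero.congr (fun s _ => by simp) rfl rfl
    · refine ((prim_phi (hx i) (hy i) (hl i)).scale (div_pos h1 h0)).congr (fun s hs => ?_) rfl rfl
      have hy' := hy i
      have hl' := hl i
      congr 4
      · field_simp
      · field_simp
  refine (prim_phi hX0 hY0 hL0).le (Prim.sum univ fun i _ => hP i) (by simp) fun s hs => ?_
  set σ := s * X / ((s + Y) * (s + L) + s * X) with hσ
  have hσ0 : 0 ≤ σ := by positivity
  have h1 : ∀ i, x i / X * (log (1 + s * X / ((s + Y) * (s + L))) - log (1 + X / s)) -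
      σ * ((y i - x i / X * Y) / (s + Y) + (l i - x i / X * L) / (s + L)) ≤
      x i / X * (log (1 + s * X / ((s + y i / (x i / X)) *
        (s + l i / (x i / X)))) - log (1 + X / s)) := by
    intro i
    have hy' := hy i
    have hl' := hl i
    rcases (hx i).eq_or_lt with h1 | h1
    · rw [← h1]
      simp only [zero_div, zero_mul, sub_zero, zero_sub, neg_nonpos]
      positivity
    · have ht := div_pos h1 h0
      have h2 := tangent_log (c := s * X) (a := s + y i / (x i / X)) (b := s + l i / (x i / X))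
        (a₀ := s + Y) (b₀ := s + L) (by positivity) (by positivity) (by positivity)
        (by positivity) (by positivity)
      have h3 := mul_le_mul_of_nonneg_left h2 ht.le
      have e : x i / X * (σ * ((s + y i / (x i / X) - (s + Y)) / (s + Y) +
          (s + l i / (x i / X) - (s + L)) / (s + L))) =
          σ * ((y i - x i / X * Y) / (s + Y) + (l i - x i / X * L) / (s + L)) := by
        field_simp
        ring
      rw [mul_sub, e] at h3
      linarith
  refine le_trans ?_ (sum_le_sum fun i _ => h1 i)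
  rw [sum_sub_distrib, ← sum_mul, ← sum_div, ← hX, div_self h0.ne', one_mul, ← mul_sum,
    sum_add_distrib, ← sum_div, ← sum_div, sum_sub_distrib, sum_sub_distrib, ← sum_mul, ← sum_mul,
    ← sum_div, ← hX, div_self h0.ne', one_mul, one_mul]
  have k1 : (∑ i, y i - Y) / (s + Y) ≤ 0 := div_nonpos_of_nonpos_of_nonneg (by linarith) (by positivity)
  have k2 : (∑ i, l i - L) / (s + L) ≤ 0 := div_nonpos_of_nonpos_of_nonneg (by linarith) (by positivity)
  nlinarith [mul_nonneg hσ0 (neg_nonneg.2 (add_nonpos k1 k2))]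

/-- Classical subadditivity of entropy, unnormalised. -/
theorem classical_subadd {α β : Type*} [Fintype α] [Fintype β] (p : α → β → ℝ)
    (hp : ∀ a b, 0 ≤ p a b) :
    ∑ a, ∑ b, negMulLog (p a b) + negMulLog (∑ a, ∑ b, p a b) ≤
      ∑ a, negMulLog (∑ b, p a b) + ∑ b, negMulLog (∑ a, p a b) := by
  set T := ∑ a, ∑ b, p a b with hT
  have hT0 : 0 ≤ T := sum_nonneg fun a _ => sum_nonneg fun b _ => hp a b
  have hr : ∀ a b, p a b ≤ ∑ b, p a b := fun a b =>
    single_le_sum (f := fun b => p a b) (fun b _ => hp a b) (mem_univ b)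
  have hc : ∀ a b, p a b ≤ ∑ a, p a b := fun a b =>
    single_le_sum (f := fun a => p a b) (fun a _ => hp a b) (mem_univ a)
  have hrT : ∀ a, ∑ b, p a b ≤ T := fun a =>
    single_le_sum (f := fun a => ∑ b, p a b) (fun a _ => sum_nonneg fun b _ => hp a b) (mem_univ a)
  have key : ∀ a b, negMulLog (p a b) - p a b * log T + p a b * log (∑ b, p a b) +
      p a b * log (∑ a, p a b) ≤ (∑ b, p a b) * (∑ a, p a b) / T - p a b := by
    intro a b
    rcases (hp a b).eq_or_lt with h0 | h0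
    · rw [← h0]
      have := (hp a b).trans (hr a b)
      have := (hp a b).trans (hc a b)
      simp only [negMulLog_zero, zero_mul, sub_zero, add_zero]
      positivity
    · have h1 := h0.trans_le (hr a b)
      have h2 := h0.trans_le (hc a b)
      have h3 := h1.trans_le (hrT a)
      have h4 := log_le_sub_one_of_pos (x := (∑ b, p a b) * (∑ a, p a b) / (T * p a b))
        (by positivity)
      rw [log_div (by positivity) (by positivity), log_mul h1.ne' h2.ne', log_mul h3.ne' h0.ne']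
        at h4
      have h5 := mul_le_mul_of_nonneg_left h4 h0.le
      have e : p a b * ((∑ b, p a b) * (∑ a, p a b) / (T * p a b) - 1) =
          (∑ b, p a b) * (∑ a, p a b) / T - p a b := by field_simp
      rw [e] at h5
      unfold negMulLog
      linarith
  have h1 := sum_le_sum fun a (_ : a ∈ univ) => sum_le_sum fun b (_ : b ∈ univ) => key a b
  have e1 : ∑ a, ∑ b, p a b * log (∑ a, p a b) = -∑ b, negMulLog (∑ a, p a b) := by
    rw [sum_comm, ← sum_neg_distrib]
    refine sum_congr rfl fun b _ => ?_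
    rw [← sum_mul, negMulLog]; ring
  have e2 : ∑ a, ∑ b, p a b * log (∑ b, p a b) = -∑ a, negMulLog (∑ b, p a b) := by
    rw [← sum_neg_distrib]
    refine sum_congr rfl fun a _ => ?_
    rw [← sum_mul, negMulLog]; ring
  have e3 : ∑ a, ∑ b, p a b * log T = -negMulLog T := by
    simp only [← sum_mul]
    rw [← hT, negMulLog]; ring
  have e4 : ∑ a, ∑ b, (∑ b, p a b) * (∑ a, p a b) / T = T * T / T := by
    simp only [← sum_div, ← mul_sum]
    rw [← sum_mul, ← hT, sum_comm, ← hT]
  have e5 : T * T / T ≤ T := by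
    rcases hT0.eq_or_lt with h | h
    · rw [← h]; simp
    · rw [mul_div_assoc, div_self h.ne', mul_one]
  simp only [sum_add_distrib, sum_sub_distrib] at h1
  rw [e1, e2, e3, e4, ← hT] at h1
  linarith

end Crest.Agent.R341
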